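import Vale.Agent.P371.Weak.Avg
import Vale.Agent.P371.All.Approx

/-!
P371: short means of an `H¹` family converge in the sense of the quadratic form.
-/

namespace Vale.Agent.P371.Weak

open MeasureTheory Set Filter Matrix
open scoped ComplexConjugate Topology ComplexOrder

variable {N m : ℕ}

/-- The averaging length. -/
noncomputable def step (n : ℕ) : ℝ := 1 / ((n : ℝ) + 1)

lemma step_pos (n : ℕ) : 0 < step n := by unfold step; positivity

lemma step_le_one (n : ℕ) : step n ≤ 1 := by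
  rw [step, div_le_one (by positivity)]
  linarith [n.cast_nonneg (α := ℝ)]

lemma step_tendsto : Tendsto step atTop (𝓝 0) := tendsto_one_div_add_atTop_nhds_zero_nat

lemma integral_avg_tendsto {u : ℝ → ℂ} (hu : MemLp u 2 volume) :
    Tendsto (fun n => ∫ x, ‖avg (step n) u x - u x‖ ^ 2) atTop (𝓝 0) := by
  rw [Metric.tendsto_nhds]
  intro ε hε
  obtain ⟨d, hd, hb⟩ := tendsto_avg hu (half_pos hε)
  filter_upwards [step_tendsto.eventually (gt_mem_nhds hd)] with n hn
  rw [Real.dist_eq, sub_zero, abs_of_nonneg (integral_nonneg fun x => sq_nonneg _)]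
  linarith [hb _ (step_pos n) hn]

lemma integrable_conj_mul {u v : ℝ → ℂ} (hu : MemLp u 2 volume) (hv : MemLp v 2 volume) :
    Integrable (fun x => conj (u x) * v x) volume :=
  MemLp.integrable_mul hu.star hv

lemma norm_pair_le {u v : ℝ → ℂ} (hu : MemLp u 2 volume) (hv : MemLp v 2 volume) {s : ℝ}
    (hs : 0 < s) :
    ‖∫ x, conj (u x) * v x‖ ≤ ((∫ x, ‖u x‖ ^ 2) / s + s * ∫ x, ‖v x‖ ^ 2) / 2 := by
  refine (norm_integral_le_of_norm_le
    ((((integrable_sq hu).div_const s).add ((integrable_sq hv).const_mul s)).div_const 2)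
    (Eventually.of_forall fun x => ?_)).trans (le_of_eq ?_)
  · rw [norm_mul, Complex.norm_conj]
    simp only [Pi.add_apply]
    rw [le_div_iff₀ two_pos, div_add' _ _ _ hs.ne', le_div_iff₀ hs]
    nlinarith [sq_nonneg (‖u x‖ - s * ‖v x‖)]
  · simp only [Pi.add_apply]
    rw [integral_div, integral_add ((integrable_sq hu).div_const s)
      ((integrable_sq hv).const_mul s), integral_div, integral_const_mul]

lemma pair_tendsto_zero {u v : ℕ → ℝ → ℂ} (hu : ∀ n, MemLp (u n) 2 volume)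
    (hv : ∀ n, MemLp (v n) 2 volume) (h0 : Tendsto (fun n => ∫ x, ‖u n x‖ ^ 2) atTop (𝓝 0))
    {B : ℝ} (hB : ∀ n, ∫ x, ‖v n x‖ ^ 2 ≤ B) :
    Tendsto (fun n => ∫ x, conj (u n x) * v n x) atTop (𝓝 0) := by
  set s : ℕ → ℝ := fun n => Real.sqrt (∫ x, ‖u n x‖ ^ 2) + step n with hs
  have hs0 : ∀ n, 0 < s n := fun n => add_pos_of_nonneg_of_pos (Real.sqrt_nonneg _) (step_pos n)
  have hst : Tendsto s atTop (𝓝 0) := by
    have h := h0.sqrt
    rw [Real.sqrt_zero] at h
    simpa using h.add step_tendsto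
  refine squeeze_zero_norm (a := fun n => (1 + B) * s n) (fun n => ?_)
    (by simpa using hst.const_mul (1 + B))
  refine (norm_pair_le (hu n) (hv n) (hs0 n)).trans ?_
  have hA : 0 ≤ ∫ x, ‖u n x‖ ^ 2 := integral_nonneg fun x => sq_nonneg _
  have h1 : (∫ x, ‖u n x‖ ^ 2) / s n ≤ s n := by
    rw [div_le_iff₀ (hs0 n), hs]
    nlinarith [Real.mul_self_sqrt hA, Real.sqrt_nonneg (∫ x, ‖u n x‖ ^ 2), step_pos n]
  have h2 : s n * ∫ x, ‖v n x‖ ^ 2 ≤ s n * B := mul_le_mul_of_nonneg_left (hB n) (hs0 n).le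
  nlinarith [hs0 n, mul_nonneg (hs0 n).le
    ((integral_nonneg fun x => sq_nonneg ‖v n x‖).trans (hB n))]

lemma inner_avg_tendsto {u v : ℝ → ℂ} (hu : MemLp u 2 volume) (hv : MemLp v 2 volume) :
    Tendsto (fun n => ∫ x, conj (avg (step n) u x) * avg (step n) v x) atTop
      (𝓝 (∫ x, conj (u x) * v x)) := by
  have hA := fun n => (memLp_avg hu (step_pos n)).1
  have hB := fun n => (memLp_avg hv (step_pos n)).1
  have t1 := pair_tendsto_zero (fun n => (hA n).sub hu) hB (integral_avg_tendsto hu)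
    (fun n => (memLp_avg hv (step_pos n)).2)
  have t2 := pair_tendsto_zero (fun n => (hB n).sub hv) (fun _ => hu) (integral_avg_tendsto hv)
    (fun _ => le_rfl)
  have t2' := (Complex.continuous_conj.tendsto 0).comp t2
  rw [map_zero] at t2'
  rw [← tendsto_sub_nhds_zero_iff]
  refine (t1.add t2').congr (fun n => ?_) |>.trans_eq ?_
  · simp only [Function.comp_apply, ← integral_conj, map_mul, Complex.conj_conj]
    have i1 := integrable_conj_mul ((hA n).sub hu) (hB n)
    have i2 : Integrable (fun x => (avg (step n) v x - v x) * conj (u x)) volume :=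
      MemLp.integrable_mul ((hB n).sub hv) hu.star
    simp only [Pi.sub_apply] at i1 ⊢
    rw [← integral_add i1 i2, ← integral_sub (integrable_conj_mul (hA n) (hB n))
      (integrable_conj_mul hu hv)]
    refine integral_congr_ae (Eventually.of_forall fun x => ?_)
    simp only [map_sub]
    ring
  · rw [add_zero]

/-- The window energy `∫ₓ^{x+1} |f'|²`. -/
noncomputable def win (f' : ℝ → ℂ) (x : ℝ) : ℝ := ∫ t in x..x + 1, ‖f' t‖ ^ 2

lemma win_facts {f' : ℝ → ℂ} (hf : MemLp f' 2 volume) :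
    Integrable (win f') volume ∧ ∀ x, 0 ≤ win f' x ∧ win f' x ≤ ∫ t, ‖f' t‖ ^ 2 := by
  refine ⟨(integral_window (integrable_sq hf) zero_le_one).1, fun x => ?_⟩
  rw [win, intervalIntegral.integral_of_le (by linarith)]
  exact ⟨integral_nonneg fun t => sq_nonneg _,
    setIntegral_le_integral (integrable_sq hf) (Eventually.of_forall fun t => sq_nonneg _)⟩

/-- The mean of an `H¹` function over a short interval is close to its left value. -/
lemma avg_sub_self {f f' : ℝ → ℂ} (hf : IsWH1 f f') {h : ℝ} (h0 : 0 < h) (h1 : h ≤ 1) (x : ℝ) :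
    ‖avg h f x - f x‖ ^ 2 ≤ h * win f' x := by
  have hsq := integrable_sq hf.2.1
  have hb : ∀ t ∈ uIoc x (x + h), ‖f t - f x‖ ≤ Real.sqrt (h * win f' x) := fun t ht => by
    rw [uIoc_of_le (by linarith)] at ht
    have e : f t - f x = ∫ s in x..t, f' s := by
      rw [hf.2.2 t, hf.2.2 x, add_sub_add_left_eq_sub,
        intervalIntegral.integral_interval_sub_left (memLp_ii hf.2.1 _ _) (memLp_ii hf.2.1 _ _)]
    rw [e]
    refine Real.le_sqrt_of_sq_le ((sq_integral_le hf.2.1 ht.1.le).trans ?_)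
    refine mul_le_mul (by linarith [ht.2]) ?_
      (intervalIntegral.integral_nonneg ht.1.le fun s _ => sq_nonneg _) h0.le
    rw [win, intervalIntegral.integral_of_le ht.1.le, intervalIntegral.integral_of_le (by linarith)]
    exact setIntegral_mono_set hsq.integrableOn (Eventually.of_forall fun s => sq_nonneg _)
      (Eventually.of_forall (Ioc_subset_Ioc_right (by linarith [ht.2])))
  have hn := intervalIntegral.norm_integral_le_of_norm_le_const hb
  rw [add_sub_cancel_left, abs_of_pos h0] at hn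
  have key : ‖avg h f x - f x‖ ≤ Real.sqrt (h * win f' x) := by
    rw [avg_sub_const hf.1 h0.ne', norm_mul, Complex.norm_real,
      Real.norm_of_nonneg (inv_nonneg.2 h0.le)]
    refine (mul_le_mul_of_nonneg_left hn (inv_nonneg.2 h0.le)).trans (le_of_eq ?_)
    field_simp
  have := pow_le_pow_left₀ (norm_nonneg _) key 2
  rwa [Real.sq_sqrt (mul_nonneg h0.le ((win_facts hf.2.1).2 x).1)] at this

/-- The dominating density of the family. -/
noncomputable def dom (f f' : Fin N → ℝ → Fin m → ℂ) (x : ℝ) : ℝ :=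
  ∑ i, ∑ a, 2 * (‖f i x a‖ ^ 2 + win (fun t => f' i t a) x)

lemma dom_facts {f f' : Fin N → ℝ → Fin m → ℂ} (hf : ∀ i, IsWH1V (f i) (f' i)) :
    Integrable (dom f f') volume ∧ (∃ B, ∀ x, dom f f' x ≤ B) ∧
    (∀ i a x, ‖f i x a‖ ^ 2 ≤ dom f f' x) ∧
    ∀ n i a x, ‖avg (step n) (fun t => f i t a) x‖ ^ 2 ≤ dom f f' x := by
  have hw := fun i a => win_facts (hf i a).2.1
  have h0 : ∀ i a x, 0 ≤ 2 * (‖f i x a‖ ^ 2 + win (fun t => f' i t a) x) := fun i a x =>
    mul_nonneg zero_le_two (add_nonneg (sq_nonneg _) ((hw i a).2 x).1)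
  have hle : ∀ i a x, 2 * (‖f i x a‖ ^ 2 + win (fun t => f' i t a) x) ≤ dom f f' x :=
    fun i a x => (Finset.single_le_sum (fun b _ => h0 i b x) (Finset.mem_univ a)).trans
      (Finset.single_le_sum (f := fun j => ∑ b, 2 * (‖f j x b‖ ^ 2 + win (fun t => f' j t b) x))
        (fun j _ => Finset.sum_nonneg fun b _ => h0 j b x) (Finset.mem_univ i))
  have hb : ∀ i a x, ‖f i x a‖ ^ 2 ≤ 2 * (∫ t, ‖f i t a‖ ^ 2) + 2 * ∫ t, ‖f' i t a‖ ^ 2 :=
    fun i a x => by
      set u := avg 1 (fun t => f i t a) x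
      have h1 : ‖u - f i x a‖ ^ 2 ≤ ∫ t, ‖f' i t a‖ ^ 2 :=
        (avg_sub_self (hf i a) one_pos le_rfl x).trans (by rw [one_mul]; exact ((hw i a).2 x).2)
      have h2 : ‖u‖ ^ 2 ≤ ∫ t, ‖f i t a‖ ^ 2 := by
        refine (sq_norm_avg_le (hf i a).1 one_pos x).trans ?_
        rw [inv_one, one_mul]
        exact ((win_facts (hf i a).1).2 x).2
      have h3 : ‖f i x a‖ ≤ ‖u‖ + ‖u - f i x a‖ := norm_le_norm_add_norm_sub u (f i x a)
      nlinarith [pow_le_pow_left₀ (norm_nonneg _) h3 2, sq_nonneg (‖u‖ - ‖u - f i x a‖)]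
  refine ⟨?_, ⟨∑ i, ∑ a, 2 * (2 * (∫ t, ‖f i t a‖ ^ 2) + 2 * (∫ t, ‖f' i t a‖ ^ 2)
    + ∫ t, ‖f' i t a‖ ^ 2), fun x => ?_⟩, fun i a x => ?_, fun n i a x => ?_⟩
  · exact integrable_finsetSum _ fun i _ => integrable_finsetSum _ fun a _ =>
      ((integrable_sq (hf i a).1).add (hw i a).1).const_mul 2
  · exact Finset.sum_le_sum fun i _ => Finset.sum_le_sum fun a _ => by
      linarith [hb i a x, ((hw i a).2 x).2]
  · linarith [hle i a x, sq_nonneg ‖f i x a‖, ((hw i a).2 x).1]
  · have h1 : ‖avg (step n) (fun t => f i t a) x - f i x a‖ ^ 2 ≤ win (fun t => f' i t a) x :=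
      (avg_sub_self (hf i a) (step_pos n) (step_le_one n) x).trans
        (mul_le_of_le_one_left ((hw i a).2 x).1 (step_le_one n))
    set u := avg (step n) (fun t => f i t a) x
    have h3 : ‖u‖ ≤ ‖f i x a‖ + ‖u - f i x a‖ := by
      linarith [norm_sub_norm_le u (f i x a)]
    nlinarith [pow_le_pow_left₀ (norm_nonneg _) h3 2, sq_nonneg (‖f i x a‖ - ‖u - f i x a‖),
      hle i a x]

lemma avg_pointwise {f f' : ℝ → ℂ} (hf : IsWH1 f f') (x : ℝ) :
    Tendsto (fun n => avg (step n) f x) atTop (𝓝 (f x)) := by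
  have h := (step_tendsto.mul_const (win f' x)).sqrt
  rw [zero_mul, Real.sqrt_zero] at h
  rw [← tendsto_sub_nhds_zero_iff]
  refine squeeze_zero_norm (fun n => ?_) h
  exact Real.le_sqrt_of_sq_le (avg_sub_self hf (step_pos n) (step_le_one n) x)

/-- Short means of a family. -/
noncomputable def gfam (f : Fin N → ℝ → Fin m → ℂ) (n : ℕ) (i : Fin N) (x : ℝ) (a : Fin m) : ℂ :=
  avg (step n) (fun t => f i t a) x

lemma isH1_avg {f f' : ℝ → ℂ} (hf : IsWH1 f f') {h : ℝ} (h0 : 0 < h) :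
    IsH1 (avg h f) (avg h f') := by
  refine ⟨fun x => ?_, continuous_avg hf.2.1 h, (memLp_avg hf.1 h0).1, (memLp_avg hf.2.1 h0).1⟩
  have hc : Continuous f := by
    rw [funext hf.2.2]
    exact continuous_const.add
      (intervalIntegral.continuous_primitive (fun a b => memLp_ii hf.2.1 a b) 0)
  have hP : ∀ y, HasDerivAt (fun z => ∫ t in (0 : ℝ)..z, f t) (f y) y := fun y =>
    (hc.integral_hasStrictDerivAt 0 y).hasDerivAt
  have e : avg h f = fun z =>
      ((h⁻¹ : ℝ) : ℂ) * ((∫ t in (0 : ℝ)..z + h, f t) - ∫ t in (0 : ℝ)..z, f t) := by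
    funext z
    rw [avg, intervalIntegral.integral_interval_sub_left (memLp_ii hf.1 _ _) (memLp_ii hf.1 _ _)]
  rw [e]
  refine ((((hP (x + h)).comp_add_const x h).sub (hP x)).const_mul _).congr_deriv ?_
  rw [hf.2.2 (x + h), hf.2.2 x, add_sub_add_left_eq_sub,
    intervalIntegral.integral_interval_sub_left (memLp_ii hf.2.1 _ _) (memLp_ii hf.2.1 _ _), avg]

lemma norm_form_le {S : ℝ} {M : Matrix (Fin m) (Fin m) ℂ} {u v : Fin m → ℂ}
    (hu : ∀ a, ‖u a‖ ^ 2 ≤ S) (hv : ∀ a, ‖v a‖ ^ 2 ≤ S) :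
    ‖∑ a, conj (u a) * (M *ᵥ v) a‖ ≤ All.Approx.ent M * S := by
  rw [All.Approx.ent, Finset.sum_mul]
  refine (norm_sum_le _ _).trans (Finset.sum_le_sum fun a _ => ?_)
  rw [mulVec, dotProduct, Finset.mul_sum, Finset.sum_mul]
  refine (norm_sum_le _ _).trans (Finset.sum_le_sum fun b _ => ?_)
  rw [norm_mul, norm_mul, Complex.norm_conj, mul_left_comm]
  exact mul_le_mul_of_nonneg_left
    (by nlinarith [hu a, hv b, sq_nonneg (‖u a‖ - ‖v b‖)]) (norm_nonneg _)

/-- The potential term: integrable and continuous along the means. -/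
theorem potential_tendsto {γ : ℝ} (hγ : 1 / 2 < γ) {W : ℝ → Matrix (Fin m) (Fin m) ℂ}
    (hW : IsMPotentialAt γ W) {f f' : Fin N → ℝ → Fin m → ℂ} (hf : ∀ i, IsWH1V (f i) (f' i))
    (i j : Fin N) :
    Integrable (fun x => ∑ a, conj (f i x a) * (W x *ᵥ f j x) a) volume ∧
    Tendsto (fun n => ∫ x, ∑ a, conj (gfam f n i x a) * (W x *ᵥ gfam f n j x) a) atTop
      (𝓝 (∫ x, ∑ a, conj (f i x a) * (W x *ᵥ f j x) a)) := by
  obtain ⟨hWm, hW0, hWi⟩ := hW
  obtain ⟨hSi, ⟨B, hSB⟩, hS1, hS2⟩ := dom_facts hf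
  set p := γ + 1 / 2 with hp'
  have hp : 1 ≤ p := by linarith
  set C := ((m : ℝ) ^ 2) ^ p * (m : ℝ) ^ (p - 1)
  have hdi : Integrable (fun x => dom f f' x + |B| * (C * trPowAt p (W x))) volume :=
    hSi.add ((hWi.const_mul C).const_mul _)
  have hbd : ∀ u v : Fin m → ℂ, ∀ x, (∀ a, ‖u a‖ ^ 2 ≤ dom f f' x) →
      (∀ a, ‖v a‖ ^ 2 ≤ dom f f' x) →
      ‖∑ a, conj (u a) * (W x *ᵥ v) a‖ ≤ dom f f' x + |B| * (C * trPowAt p (W x)) :=
    fun u v x hu hv => by
    refine (norm_form_le hu hv).trans ?_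
    have he := All.Approx.ent_nonneg (W x)
    have h2 := All.Approx.le_split hp one_pos he
    rw [Real.one_rpow, one_mul] at h2
    have h3 := All.Approx.ent_rpow_le_trPow hp (hW0 x)
    have hd0 : 0 ≤ dom f f' x := Finset.sum_nonneg fun k _ => Finset.sum_nonneg fun a _ =>
      mul_nonneg zero_le_two (add_nonneg (sq_nonneg _) ((win_facts (hf k a).2.1).2 x).1)
    have hE : 0 ≤ All.Approx.ent (W x) ^ p := Real.rpow_nonneg he p
    calc All.Approx.ent (W x) * dom f f' x ≤ (1 + All.Approx.ent (W x) ^ p) * dom f f' x :=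
          mul_le_mul_of_nonneg_right h2 hd0
      _ = dom f f' x + dom f f' x * All.Approx.ent (W x) ^ p := by ring
      _ ≤ _ := add_le_add le_rfl (mul_le_mul ((hSB x).trans (le_abs_self B)) h3 hE (abs_nonneg B))
  have hmeas : ∀ u v : ℝ → Fin m → ℂ, (∀ a, Continuous fun x => u x a) →
      (∀ a, Continuous fun x => v x a) →
      AEStronglyMeasurable (fun x => ∑ a, conj (u x a) * (W x *ᵥ v x) a) volume :=
    fun u v hu hv => by
    simp only [mulVec, dotProduct]
    exact (Finset.measurable_sum _ fun a _ => (Complex.continuous_conj.comp (hu a)).measurable.mul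
      (Finset.measurable_sum _ fun b _ => (hWm a b).mul (hv b).measurable)).aestronglyMeasurable
  have hfc : ∀ k a, Continuous fun x => f k x a := fun k a => by
    rw [funext (hf k a).2.2]
    exact continuous_const.add
      (intervalIntegral.continuous_primitive (fun a' b => memLp_ii (hf k a).2.1 a' b) 0)
  refine ⟨hdi.mono' (hmeas _ _ (hfc i) (hfc j)) (Eventually.of_forall fun x =>
    hbd _ _ x (fun a => hS1 i a x) fun a => hS1 j a x),
    tendsto_integral_of_dominated_convergence _ (fun n => hmeas _ _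
      (fun a => continuous_avg (hf i a).1 _) fun a => continuous_avg (hf j a).1 _) hdi
      (fun n => Eventually.of_forall fun x =>
        hbd _ _ x (fun a => hS2 n i a x) fun a => hS2 n j a x)
      (Eventually.of_forall fun x => ?_)⟩
  simp only [mulVec, dotProduct]
  exact tendsto_finsetSum _ fun a _ =>
    ((Complex.continuous_conj.tendsto _).comp (avg_pointwise (hf i a) x)).mul
      (tendsto_finsetSum _ fun b _ => (avg_pointwise (hf j b) x).const_mul _)

end Vale.Agent.P371.Weak
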