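import Vale.Agent.P371.Weak.Defs

/-!
P371: averaging over short intervals converges in `H¹`.
-/

namespace Vale.Agent.P371.Weak

open MeasureTheory Set Filter
open scoped ComplexConjugate Topology Interval

/-- The mean over `[x, x + h]`. -/
noncomputable def avg (h : ℝ) (u : ℝ → ℂ) (x : ℝ) : ℂ :=
  ((h⁻¹ : ℝ) : ℂ) * ∫ t in x..x + h, u t

variable {u v f f' : ℝ → ℂ} {h : ℝ}

lemma memLp_ii (hu : MemLp u 2 volume) (a b : ℝ) : IntervalIntegrable u volume a b :=
  ((hu.locallyIntegrable one_le_two).integrableOn_isCompact isCompact_uIcc).intervalIntegrable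

lemma integrable_sq (hu : MemLp u 2 volume) : Integrable (fun x => ‖u x‖ ^ 2) volume :=
  hu.integrable_norm_pow two_ne_zero

lemma continuous_primitive_ii {E : Type*} [NormedAddCommGroup E] [NormedSpace ℝ E] {R : ℝ → E}
    (hR : LocallyIntegrable R volume) (h : ℝ) : Continuous fun x => ∫ t in x..x + h, R t := by
  have hI : ∀ a b : ℝ, IntervalIntegrable R volume a b := fun a b =>
    (hR.integrableOn_isCompact isCompact_uIcc).intervalIntegrable
  have hP := intervalIntegral.continuous_primitive hI (0 : ℝ)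
  have e : (fun x => ∫ t in x..x + h, R t)
      = fun x => (∫ t in (0 : ℝ)..x + h, R t) - ∫ t in (0 : ℝ)..x, R t := by
    funext x
    rw [intervalIntegral.integral_interval_sub_left (hI _ _) (hI _ _)]
  rw [e]
  exact (hP.comp (continuous_id.add continuous_const)).sub hP

lemma continuous_avg (hu : MemLp u 2 volume) (h : ℝ) : Continuous (avg h u) :=
  continuous_const.mul (continuous_primitive_ii (hu.locallyIntegrable one_le_two) h)

/-- The integral of the running integral of an integrable function. -/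
lemma integral_window {R : ℝ → ℝ} (hR : Integrable R volume) (hh : 0 ≤ h) :
    Integrable (fun x => ∫ t in x..x + h, R t) volume ∧
      ∫ x, ∫ t in x..x + h, R t = h * ∫ x, R x := by
  set w : ℝ → ℝ := (Ico (-h) 0).indicator fun _ => (1 : ℝ) with hw
  have hwi : Integrable w volume := (integrable_indicator_iff measurableSet_Ico).2
    (integrableOn_const measure_Ico_lt_top.ne)
  have e : convolution w R (ContinuousLinearMap.mul ℝ ℝ) volume
      = fun x => ∫ t in x..x + h, R t := by
    funext x
    rw [convolution_def]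
    simp only [ContinuousLinearMap.mul_apply', hw]
    rw [show (fun t => (Ico (-h) 0).indicator (fun _ => (1 : ℝ)) t * R (x - t))
      = (Ico (-h) 0).indicator fun t => R (x - t) by
        funext t; by_cases ht : t ∈ Ico (-h) 0 <;> simp [ht] ]
    rw [integral_indicator measurableSet_Ico, integral_Ico_eq_integral_Ioc,
      ← intervalIntegral.integral_of_le (by linarith), intervalIntegral.integral_comp_sub_left,
      sub_zero, sub_neg_eq_add]
  refine ⟨e ▸ hwi.integrable_convolution _ hR, ?_⟩
  rw [← e, integral_convolution (L := ContinuousLinearMap.mul ℝ ℝ) hwi hR]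
  simp [hw, integral_indicator measurableSet_Ico, hh]

lemma sq_integral_le (hu : MemLp u 2 volume) {a b : ℝ} (hab : a ≤ b) :
    ‖∫ t in a..b, u t‖ ^ 2 ≤ (b - a) * ∫ t in a..b, ‖u t‖ ^ 2 := by
  rcases hab.eq_or_lt with rfl | hlt
  · simp
  have h2 : IntervalIntegrable (fun t => ‖u t‖ ^ 2) volume a b :=
    (integrable_sq hu).intervalIntegrable
  have h1 : IntervalIntegrable (fun t => ‖u t‖) volume a b := (memLp_ii hu a b).norm
  set J := ∫ t in a..b, ‖u t‖ with hJ
  set c := J / (b - a) with hc
  have h0 : 0 ≤ ∫ t in a..b, (‖u t‖ ^ 2 - 2 * c * ‖u t‖ + c ^ 2) :=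
    intervalIntegral.integral_nonneg hab fun t _ => by nlinarith [sq_nonneg (‖u t‖ - c)]
  rw [intervalIntegral.integral_add (h2.sub (h1.const_mul _)) intervalIntegrable_const,
    intervalIntegral.integral_sub h2 (h1.const_mul _), intervalIntegral.integral_const_mul,
    intervalIntegral.integral_const, smul_eq_mul, ← hJ] at h0
  have hn : ‖∫ t in a..b, u t‖ ^ 2 ≤ J ^ 2 :=
    pow_le_pow_left₀ (norm_nonneg _) (intervalIntegral.norm_integral_le_integral_norm hab) 2
  refine hn.trans ?_
  have hcb : J = c * (b - a) := by rw [hc, div_mul_cancel₀ _ (by linarith : (b - a) ≠ 0)]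
  rw [hcb] at h0 ⊢
  nlinarith [mul_nonneg (sub_nonneg.2 hab) h0]

lemma sq_norm_avg_le (hu : MemLp u 2 volume) (hh : 0 < h) (x : ℝ) :
    ‖avg h u x‖ ^ 2 ≤ h⁻¹ * ∫ t in x..x + h, ‖u t‖ ^ 2 := by
  have h1 := sq_integral_le hu (a := x) (b := x + h) (by linarith)
  rw [add_sub_cancel_left] at h1
  rw [avg, norm_mul, mul_pow, Complex.norm_real, Real.norm_of_nonneg (inv_nonneg.2 hh.le)]
  refine (mul_le_mul_of_nonneg_left h1 (sq_nonneg _)).trans (le_of_eq ?_)
  field_simp

lemma memLp_avg (hu : MemLp u 2 volume) (hh : 0 < h) :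
    MemLp (avg h u) 2 volume ∧ ∫ x, ‖avg h u x‖ ^ 2 ≤ ∫ x, ‖u x‖ ^ 2 := by
  obtain ⟨hi, hv⟩ := integral_window (integrable_sq hu) hh.le
  have hb : Integrable (fun x => h⁻¹ * ∫ t in x..x + h, ‖u t‖ ^ 2) volume := hi.const_mul _
  have hA : Integrable (fun x => ‖avg h u x‖ ^ 2) volume :=
    hb.mono' (((continuous_avg hu h).norm).pow 2).aestronglyMeasurable
      (Eventually.of_forall fun x => by
        rw [Real.norm_of_nonneg (sq_nonneg _)]; exact sq_norm_avg_le hu hh x)
  refine ⟨(memLp_two_iff_integrable_sq_norm (continuous_avg hu h).aestronglyMeasurable).2 hA, ?_⟩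
  refine (integral_mono hA hb fun x => sq_norm_avg_le hu hh x).trans (le_of_eq ?_)
  rw [integral_const_mul, hv]
  field_simp

lemma avg_sub (hu : MemLp u 2 volume) (hv : MemLp v 2 volume) (h x : ℝ) :
    avg h (fun t => u t - v t) x = avg h u x - avg h v x := by
  simp only [avg]
  rw [intervalIntegral.integral_sub (memLp_ii hu _ _) (memLp_ii hv _ _), mul_sub]

lemma avg_sub_const (hu : MemLp u 2 volume) (hh : h ≠ 0) (c : ℂ) (x : ℝ) :
    avg h u x - c = ((h⁻¹ : ℝ) : ℂ) * ∫ t in x..x + h, (u t - c) := by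
  rw [intervalIntegral.integral_sub (memLp_ii hu _ _) intervalIntegrable_const,
    intervalIntegral.integral_const, avg, Complex.real_smul]
  have : (h : ℂ) ≠ 0 := Complex.ofReal_ne_zero.2 hh
  push_cast
  rw [add_sub_cancel_left]
  field_simp

/-- Short means converge in `L²`. -/
theorem tendsto_avg (hu : MemLp u 2 volume) {ε : ℝ} (hε : 0 < ε) :
    ∃ d, 0 < d ∧ ∀ h, 0 < h → h < d → ∫ x, ‖avg h u x - u x‖ ^ 2 ≤ ε := by
  obtain ⟨φ, hφs, hφe, hφc, hφ2⟩ := (show MemLp u (ENNReal.ofReal 2) volume by simpa using hu)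
    |>.exists_hasCompactSupport_integral_rpow_sub_le (by norm_num) (show 0 < ε / 12 by positivity)
  have hφm : MemLp φ 2 volume := by simpa using hφ2
  have hr : MemLp (fun t => u t - φ t) 2 volume := hu.sub hφm
  have hre : ∫ x, ‖u x - φ x‖ ^ 2 ≤ ε / 12 := by
    refine le_of_eq_of_le ?_ hφe
    exact integral_congr_ae (Eventually.of_forall fun x => by norm_num)
  obtain ⟨R, hR⟩ := hφs.isCompact.isBounded.subset_closedBall 0
  set S : Set ℝ := Icc (-(|R| + 1)) (|R| + 1) with hS
  have hout : ∀ t, |R| < |t| → φ t = 0 := fun t ht => by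
    by_contra hne
    have := hR (subset_tsupport _ hne)
    rw [Metric.mem_closedBall, Real.dist_eq, sub_zero] at this
    linarith [le_abs_self R]
  set η : ℝ := Real.sqrt (ε / (12 * (|R| + 1))) with hη
  have hη0 : 0 < η := Real.sqrt_pos.2 (by positivity)
  obtain ⟨δ, hδ, hδu⟩ :=
    Metric.uniformContinuous_iff.1 (hφs.uniformContinuous_of_continuous hφc) η hη0
  refine ⟨min δ 1, lt_min hδ one_pos, fun h h0 hd => ?_⟩
  have hpt : ∀ x, ‖avg h φ x - φ x‖ ≤ η := fun x => by
    rw [avg_sub_const hφm h0.ne', norm_mul, Complex.norm_real,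
      Real.norm_of_nonneg (inv_nonneg.2 h0.le)]
    refine (mul_le_mul_of_nonneg_left (intervalIntegral.norm_integral_le_of_norm_le_const
      (C := η) fun t ht => ?_) (inv_nonneg.2 h0.le)).trans (le_of_eq ?_)
    · rw [uIoc_of_le (by linarith)] at ht
      rw [← dist_eq_norm]
      refine (hδu ?_).le
      rw [Real.dist_eq, abs_of_pos (by linarith [ht.1])]
      linarith [ht.2, min_le_left δ 1]
    · rw [add_sub_cancel_left, abs_of_pos h0]
      field_simp
  have hzero : ∀ x, x ∉ S → avg h φ x - φ x = 0 := fun x hx => by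
    have hx' : |R| + 1 < |x| := by
      rw [hS, mem_Icc, ← abs_le, not_le] at hx
      exact hx
    rw [hout x (by linarith), sub_zero, avg]
    rw [intervalIntegral.integral_congr (g := fun _ => (0 : ℂ)) fun t ht => hout t ?_]
    · simp
    · rw [uIcc_of_le (by linarith)] at ht
      have h1 : |x| ≤ |t| + |t - x| := by
        calc |x| = |t - (t - x)| := by rw [sub_sub_cancel]
          _ ≤ _ := abs_sub _ _
      rw [abs_of_nonneg (sub_nonneg.2 ht.1)] at h1
      linarith [ht.2, min_le_right δ 1]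
  have hmid : ∫ x, ‖avg h φ x - φ x‖ ^ 2 ≤ ε / 6 := by
    have hSi : Integrable (S.indicator fun _ => η ^ 2) volume :=
      (integrable_indicator_iff measurableSet_Icc).2 (integrableOn_const measure_Icc_lt_top.ne)
    refine (integral_mono (integrable_sq ((memLp_avg hφm h0).1.sub hφm)) hSi fun x => ?_).trans
      (le_of_eq ?_)
    · by_cases hx : x ∈ S
      · simp only [indicator_of_mem hx]
        exact pow_le_pow_left₀ (norm_nonneg _) (hpt x) 2
      · simp [indicator_of_notMem hx, hzero x hx]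
    · rw [integral_indicator measurableSet_Icc, setIntegral_const, hη,
        Real.sq_sqrt (by positivity), smul_eq_mul, Real.volume_real_Icc_of_le
          (by linarith [abs_nonneg R])]
      field_simp
      ring
  have i1 := integrable_sq (memLp_avg hr h0).1
  have i2 := integrable_sq ((memLp_avg hφm h0).1.sub hφm)
  have i3 := integrable_sq hr
  have hbd := (memLp_avg hr h0).2
  calc ∫ x, ‖avg h u x - u x‖ ^ 2
      ≤ ∫ x, 3 * (‖avg h (fun t => u t - φ t) x‖ ^ 2 + ‖avg h φ x - φ x‖ ^ 2
          + ‖u x - φ x‖ ^ 2) := by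
        refine integral_mono (integrable_sq ((memLp_avg hu h0).1.sub hu))
          (((i1.add i2).add i3).const_mul 3) fun x => ?_
        set a := avg h (fun t => u t - φ t) x with ha
        set b := avg h φ x - φ x
        set c := u x - φ x
        have e : avg h u x - u x = a + b - c := by rw [ha, avg_sub hu hφm]; ring
        show ‖avg h u x - u x‖ ^ 2 ≤ _
        rw [e]
        have h1 : ‖a + b - c‖ ≤ ‖a‖ + ‖b‖ + ‖c‖ :=
          (norm_sub_le _ _).trans (by linarith [norm_add_le a b])
        refine (pow_le_pow_left₀ (norm_nonneg _) h1 2).trans ?_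
        nlinarith [sq_nonneg (‖a‖ - ‖b‖), sq_nonneg (‖b‖ - ‖c‖), sq_nonneg (‖a‖ - ‖c‖)]
    _ = 3 * ((∫ x, ‖avg h (fun t => u t - φ t) x‖ ^ 2) + (∫ x, ‖avg h φ x - φ x‖ ^ 2)
          + ∫ x, ‖u x - φ x‖ ^ 2) := by
        rw [integral_const_mul, integral_add (f := fun x => _ + _) (i1.add i2) i3]
        congr 2
        exact integral_add i1 i2
    _ ≤ ε := by linarith

end Vale.Agent.P371.Weak
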