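import Vale.Agent.P371.Weak.Avg
import Vale.Agent.P371.All.Approx

/-!
P371: `H¹` eigenfunctions are continuously differentiable (du Bois-Reymond).
-/

namespace Vale.Agent.P371.Weak

open MeasureTheory Set Filter Matrix
open scoped ComplexConjugate Topology ComplexOrder ContDiff

variable {m : ℕ}

lemma locInt_ii {E : Type*} [NormedAddCommGroup E] {k : ℝ → E} (hk : LocallyIntegrable k volume)
    (a b : ℝ) : IntervalIntegrable k volume a b :=
  (hk.integrableOn_isCompact isCompact_uIcc).intervalIntegrable

lemma wh1_continuous {f f' : ℝ → ℂ} (hf : IsWH1 f f') : Continuous f := by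
  rw [funext hf.2.2]
  exact continuous_const.add (intervalIntegral.continuous_primitive (fun a b => memLp_ii hf.2.1 a b) 0)

/-- Integration by parts against a test function. -/
lemma ibp_real {k φ φ' : ℝ → ℝ} (hk : LocallyIntegrable k volume)
    (hφ : ∀ x, HasDerivAt φ (φ' x) x) (hφ'c : Continuous φ') {M : ℝ} (hM : 0 < M)
    (hs : ∀ x, x ∉ Ioo (-M) M → φ x = 0 ∧ φ' x = 0) :
    ∫ x, φ' x * ∫ t in (0 : ℝ)..x, k t = -∫ x, φ x * k x := by
  set H : ℝ → ℝ := fun x => ∫ t in (0 : ℝ)..x, k t with hH
  have hsub : ∀ g : ℝ → ℝ, (∀ x, x ∉ Ioo (-M) M → g x = 0) →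
      ∫ x, g x = ∫ x in (-M)..M, g x := fun g hg =>
    (intervalIntegral.integral_eq_integral_of_support_subset fun x hx => by
      by_contra hc
      exact hx (hg x fun h => hc (Ioo_subset_Ioc_self h))).symm
  have h0 : φ (-M) = 0 := (hs _ fun h => lt_irrefl _ h.1).1
  have h1 : φ M = 0 := (hs _ fun h => lt_irrefl _ h.2).1
  have e : φ = fun x => ∫ t in (-M)..x, φ' t := funext fun x => by
    rw [intervalIntegral.integral_eq_sub_of_hasDerivAt (fun t _ => hφ t)
      (hφ'c.intervalIntegrable _ _), h0, sub_zero]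
  have hac : AbsolutelyContinuousOnInterval φ (-M) M := by
    have h := (hφ'c.intervalIntegrable (μ := volume) (-M) M)
      |>.absolutelyContinuousOnInterval_intervalIntegral (c := -M) left_mem_uIcc
    rwa [← e] at h
  have hHc : AbsolutelyContinuousOnInterval H (-M) M :=
    (locInt_ii hk (-M) M).absolutelyContinuousOnInterval_intervalIntegral (c := 0)
      (by rw [uIcc_of_le (by linarith)]; constructor <;> linarith)
  have h := hac.integral_mul_deriv_eq_deriv_mul hHc
  rw [h0, h1, zero_mul, zero_mul, sub_zero, zero_sub] at h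
  rw [hsub _ fun x hx => by rw [(hs x hx).2, zero_mul], hsub _ fun x hx => by rw [(hs x hx).1, zero_mul]]
  rw [← neg_eq_iff_eq_neg]
  refine Eq.trans ?_ (Eq.trans h.symm (intervalIntegral.integral_congr_ae ?_))
  · rw [neg_inj]
    exact intervalIntegral.integral_congr fun x _ => by rw [(hφ x).deriv]
  · filter_upwards [LocallyIntegrable.ae_hasDerivAt_integral hk] with x hx _
    rw [(hx 0).deriv]

lemma smul_re_im {g : ℝ → ℝ} {u : ℝ → ℂ} (h : Integrable (fun x => g x • u x) volume) :
    (∫ x, g x • u x).re = (∫ x, g x * (u x).re) ∧ (∫ x, g x • u x).im = ∫ x, g x * (u x).im := by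
  have h1 := Complex.reCLM.integral_comp_comm h
  have h2 := Complex.imCLM.integral_comp_comm h
  simp only [Complex.reCLM_apply, Complex.imCLM_apply, Complex.smul_re, Complex.smul_im,
    smul_eq_mul] at h1 h2
  exact ⟨h1.symm, h2.symm⟩

lemma ibp {k : ℝ → ℂ} {φ φ' : ℝ → ℝ} (hk : LocallyIntegrable k volume)
    (hφ : ∀ x, HasDerivAt φ (φ' x) x) (hφ'c : Continuous φ') {M : ℝ} (hM : 0 < M)
    (hs : ∀ x, x ∉ Ioo (-M) M → φ x = 0 ∧ φ' x = 0) :
    ∫ x, φ' x • ∫ t in (0 : ℝ)..x, k t = -∫ x, φ x • k x := by
  have hφc : Continuous φ := continuous_iff_continuousAt.2 fun x => (hφ x).continuousAt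
  have hcs : HasCompactSupport φ ∧ HasCompactSupport φ' :=
    ⟨.intro (isCompact_Icc (a := -M) (b := M)) fun x hx =>
        (hs x fun h => hx (Ioo_subset_Icc_self h)).1,
      .intro (isCompact_Icc (a := -M) (b := M)) fun x hx =>
        (hs x fun h => hx (Ioo_subset_Icc_self h)).2⟩
  have hHc : Continuous fun x => ∫ t in (0 : ℝ)..x, k t :=
    intervalIntegral.continuous_primitive (locInt_ii hk) 0
  have i1 : Integrable (fun x => φ' x • ∫ t in (0 : ℝ)..x, k t) volume :=
    (hφ'c.smul hHc).integrable_of_hasCompactSupport hcs.2.smul_right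
  have i2 : Integrable (fun x => φ x • k x) volume :=
    hk.integrable_smul_left_of_hasCompactSupport hφc hcs.1
  obtain ⟨a1, b1⟩ := smul_re_im i1
  obtain ⟨a2, b2⟩ := smul_re_im i2
  have hre : LocallyIntegrable (fun x => (k x).re) volume := fun x => (hk x).imp fun s hs =>
    ⟨hs.1, Complex.reCLM.integrable_comp hs.2⟩
  have him : LocallyIntegrable (fun x => (k x).im) volume := fun x => (hk x).imp fun s hs =>
    ⟨hs.1, Complex.imCLM.integrable_comp hs.2⟩
  apply Complex.ext
  · rw [a1, Complex.neg_re, a2, ← ibp_real hre hφ hφ'c hM hs]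
    refine integral_congr_ae (Eventually.of_forall fun x => ?_)
    exact congrArg (φ' x * ·) (Complex.reCLM.intervalIntegral_comp_comm (locInt_ii hk 0 x)).symm
  · rw [b1, Complex.neg_im, b2, ← ibp_real him hφ hφ'c hM hs]
    refine integral_congr_ae (Eventually.of_forall fun x => ?_)
    exact congrArg (φ' x * ·) (Complex.imCLM.intervalIntegral_comp_comm (locInt_ii hk 0 x)).symm

/-- A locally integrable function orthogonal to all derivatives of test functions is constant. -/
lemma ae_const_of_deriv_test {u : ℝ → ℂ} (hu : LocallyIntegrable u volume)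
    (h : ∀ (φ φ' : ℝ → ℝ) (M : ℝ), 0 < M → (∀ x, HasDerivAt φ (φ' x) x) → Continuous φ' →
      (∀ x, x ∉ Ioo (-M) M → φ x = 0 ∧ φ' x = 0) → ∫ x, φ' x • u x = 0) :
    ∃ c : ℂ, ∀ᵐ x ∂volume, u x = c := by
  set B : ContDiffBump (0 : ℝ) := ⟨1, 2, one_pos, one_lt_two⟩ with hB
  set ψ : ℝ → ℝ := B.normed volume with hψ
  have hψc : Continuous ψ := B.continuous_normed
  have hψs : HasCompactSupport ψ := B.hasCompactSupport_normed
  refine ⟨∫ x, ψ x • u x, ?_⟩
  set c := ∫ x, ψ x • u x with hc
  suffices hz : ∀ᵐ x ∂volume, u x - c = 0 from hz.mono fun x hx => sub_eq_zero.1 hx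
  refine ae_eq_zero_of_integral_contDiff_smul_eq_zero (hu.sub (locallyIntegrable_const c))
    fun g hg hgs => ?_
  set I := ∫ x, g x with hI
  set φ' : ℝ → ℝ := fun x => g x - I * ψ x with hφ'
  have hφ'c : Continuous φ' := hg.continuous.sub (continuous_const.mul hψc)
  have hφ's : HasCompactSupport φ' := hgs.sub hψs.mul_left
  obtain ⟨R, hR⟩ := hφ's.isCompact.isBounded.subset_closedBall 0
  set M := |R| + 1 with hM
  have hout : ∀ x, x ∉ Ioo (-M) M → φ' x = 0 := fun x hx => by
    by_contra hne
    have := hR (subset_tsupport _ hne)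
    rw [Metric.mem_closedBall, Real.dist_eq, sub_zero, abs_le] at this
    exact hx ⟨by linarith [le_abs_self R, this.1], by linarith [le_abs_self R, this.2]⟩
  have gi : Integrable g volume := hg.continuous.integrable_of_hasCompactSupport hgs
  have htot : ∫ x, φ' x = 0 := by
    rw [hφ', integral_sub gi ((hψc.integrable_of_hasCompactSupport hψs).const_mul I),
      integral_const_mul, hψ, B.integral_normed, ← hI]
    ring
  set φ : ℝ → ℝ := fun x => ∫ t in (-M)..x, φ' t with hφ
  have hM0 : 0 < M := by positivity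
  have hφ0 : ∀ x, x ∉ Ioo (-M) M → φ x = 0 := fun x hx => by
    rcases not_and_or.1 hx with hx | hx <;> rw [not_lt] at hx
    · show ∫ t in (-M)..x, φ' t = 0
      rw [intervalIntegral.integral_congr (g := fun _ => (0 : ℝ)) fun t ht => hout t fun h' => ?_]
      · simp
      · rw [uIcc_of_ge hx] at ht
        linarith [ht.2, h'.1]
    · show ∫ t in (-M)..x, φ' t = 0
      rw [intervalIntegral.integral_eq_integral_of_support_subset fun t ht => ?_]
      · exact htot
      · by_contra hc
        exact ht (hout t fun h' => hc ⟨h'.1, h'.2.le.trans hx⟩)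
  have e := h φ φ' M hM0 (fun x => (hφ'c.integral_hasStrictDerivAt (-M) x).hasDerivAt) hφ'c
    fun x hx => ⟨hφ0 x hx, hout x hx⟩
  have i1 : Integrable (fun x => g x • u x) volume :=
    hu.integrable_smul_left_of_hasCompactSupport hg.continuous hgs
  have i2 : Integrable (fun x => ψ x • u x) volume :=
    hu.integrable_smul_left_of_hasCompactSupport hψc hψs
  simp only [hφ', sub_smul, ← smul_smul] at e
  rw [integral_sub i1 (i2.fun_smul I), integral_smul, ← hc, sub_eq_zero] at e
  simp only [Pi.sub_apply, smul_sub]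
  rw [integral_sub i1 (gi.smul_const c), integral_smul_const, ← hI, e, sub_self]

/-- The potential term of the equation is locally integrable. -/
lemma locInt_mulVec {γ : ℝ} (hγ : 1 / 2 < γ) {W : ℝ → Matrix (Fin m) (Fin m) ℂ}
    (hW : IsMPotentialAt γ W) {F : ℝ → Fin m → ℂ} (hF : ∀ a, Continuous fun x => F x a)
    (a : Fin m) : LocallyIntegrable (fun x => (W x *ᵥ F x) a) volume := by
  obtain ⟨hWm, hW0, hWi⟩ := hW
  have hp : 1 ≤ γ + 1 / 2 := by linarith
  have hb : ∀ b, LocallyIntegrable (fun x => W x a b) volume := fun b => by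
    refine ((locallyIntegrable_const (1 : ℝ)).add
      (hWi.const_mul (((m : ℝ) ^ 2) ^ (γ + 1 / 2) * (m : ℝ) ^ (γ + 1 / 2 - 1))).locallyIntegrable).mono
        (hWm a b).aestronglyMeasurable (Eventually.of_forall fun x => ?_)
    refine le_trans ?_ (le_abs_self _)
    have h1 := All.Approx.norm_entry_le_ent (W x) a b
    have h2 := All.Approx.le_split hp one_pos (All.Approx.ent_nonneg (W x))
    rw [Real.one_rpow, one_mul] at h2
    have h3 := All.Approx.ent_rpow_le_trPow hp (hW0 x)
    simp only [Pi.add_apply]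
    linarith
  rw [locallyIntegrable_iff]
  intro K hK
  simp only [mulVec, dotProduct]
  exact integrable_finsetSum _ fun b _ =>
    ((hb b).integrableOn_isCompact hK).mul_continuousOn (hF b).continuousOn hK

/-- An `H¹` eigenfunction is continuously differentiable. -/
theorem isMEigenfunction_of_weak {γ lam : ℝ} (hγ : 1 / 2 < γ)
    {W : ℝ → Matrix (Fin m) (Fin m) ℂ} (hW : IsMPotentialAt γ W) {f : ℝ → Fin m → ℂ}
    (hf : IsWEigenfunction W lam f) : IsMEigenfunction W lam f := by
  classical
  obtain ⟨f', hH, heq⟩ := hf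
  have hfc : ∀ a, Continuous fun x => f x a := fun a => wh1_continuous (hH a)
  set k : Fin m → ℝ → ℂ := fun a x => (W x *ᵥ f x) a + (lam : ℂ) * f x a with hk
  have hkl : ∀ a, LocallyIntegrable (k a) volume := fun a =>
    (locInt_mulVec hγ hW hfc a).add (continuous_const.mul (hfc a)).locallyIntegrable
  have hconst : ∀ a, ∃ c, ∀ᵐ x ∂volume, f' x a + (∫ t in (0 : ℝ)..x, k a t) = c := fun a => by
    have hHc : Continuous fun x => ∫ t in (0 : ℝ)..x, k a t :=
      intervalIntegral.continuous_primitive (locInt_ii (hkl a)) 0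
    refine ae_const_of_deriv_test (((hH a).2.1.locallyIntegrable one_le_two).add
      hHc.locallyIntegrable) fun φ φ' M hM hφ hφ'c hs => ?_
    have hφc : Continuous φ := continuous_iff_continuousAt.2 fun x => (hφ x).continuousAt
    have hs1 : HasCompactSupport φ := .intro (isCompact_Icc (a := -M) (b := M)) fun x hx =>
      (hs x fun h => hx (Ioo_subset_Icc_self h)).1
    have hs2 : HasCompactSupport φ' := .intro (isCompact_Icc (a := -M) (b := M)) fun x hx =>
      (hs x fun h => hx (Ioo_subset_Icc_self h)).2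
    have hg : IsH1V (fun x b => if b = a then (φ x : ℂ) else 0)
        (fun x b => if b = a then (φ' x : ℂ) else 0) := fun b => by
      by_cases hb : b = a
      · simp only [if_pos hb]
        exact ⟨fun x => (hφ x).ofReal_comp, Complex.continuous_ofReal.comp hφ'c,
          (Complex.continuous_ofReal.comp hφc).memLp_of_hasCompactSupport
            (hs1.comp_left Complex.ofReal_zero),
          (Complex.continuous_ofReal.comp hφ'c).memLp_of_hasCompactSupport
            (hs2.comp_left Complex.ofReal_zero)⟩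
      · simp only [if_neg hb]
        exact ⟨fun x => hasDerivAt_const x _, continuous_const, MemLp.zero, MemLp.zero⟩
    have e := heq _ _ hg
    simp only [apply_ite conj, map_zero, ite_mul, zero_mul, Finset.sum_ite_eq', Finset.mem_univ,
      if_true, Complex.conj_ofReal, ← Complex.real_smul] at e
    have i1 : Integrable (fun x => φ' x • f' x a) volume :=
      ((hH a).2.1.locallyIntegrable one_le_two).integrable_smul_left_of_hasCompactSupport hφ'c hs2
    have i2 : Integrable (fun x => φ' x • ∫ t in (0 : ℝ)..x, k a t) volume :=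
      (hφ'c.smul hHc).integrable_of_hasCompactSupport hs2.smul_right
    have i3 : Integrable (fun x => φ x • (W x *ᵥ f x) a) volume :=
      (locInt_mulVec hγ hW hfc a).integrable_smul_left_of_hasCompactSupport hφc hs1
    have i4 : Integrable (fun x => φ x • f x a) volume :=
      (hφc.smul (hfc a)).integrable_of_hasCompactSupport hs1.smul_right
    simp only [smul_add]
    rw [integral_add i1 i2, ibp (hkl a) hφ hφ'c hM hs]
    simp only [hk, smul_add]
    rw [integral_add i3 (by simpa only [Complex.real_smul, mul_left_comm] using i4.const_mul (lam : ℂ))]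
    have e2 : ∫ x, φ x • ((lam : ℂ) * f x a) = (lam : ℂ) * ∫ x, φ x • f x a := by
      rw [← integral_const_mul]
      simp only [Complex.real_smul, mul_left_comm]
    rw [e2]
    simp only [Complex.real_smul] at e ⊢
    linear_combination e
  choose c hc using hconst
  set f2 : ℝ → Fin m → ℂ := fun x a => c a - ∫ t in (0 : ℝ)..x, k a t with hf2
  have hae : ∀ a, (fun x => f' x a) =ᵐ[volume] fun x => f2 x a := fun a =>
    (hc a).mono fun x hx => eq_sub_of_add_eq hx
  have h2c : ∀ a, Continuous fun x => f2 x a := fun a =>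
    continuous_const.sub (intervalIntegral.continuous_primitive (locInt_ii (hkl a)) 0)
  refine ⟨f2, fun a => ⟨fun x => ?_, h2c a, (hH a).1, (hH a).2.1.ae_eq (hae a)⟩, fun g g' hg => ?_⟩
  · have e : (fun y => f y a) = fun y => f 0 a + ∫ t in (0 : ℝ)..y, f2 t a := funext fun y => by
      exact ((hH a).2.2 y).trans (congrArg (f 0 a + ·)
        (intervalIntegral.integral_congr_ae ((hae a).mono fun t ht _ => ht)))
    rw [e]
    exact ((h2c a).integral_hasStrictDerivAt 0 x).hasDerivAt.const_add _
  · rw [← heq g g' hg]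
    congr 1
    refine integral_congr_ae ?_
    filter_upwards [ae_all_iff.2 hae] with x hx
    exact Finset.sum_congr rfl fun a _ => by rw [hx a]

end Vale.Agent.P371.Weak
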