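import Vale.Agent.P371.Weak.Approx
import Vale.Agent.P371.Weak.Regular
import Vale.Agent.P371.All.Main

/-!
P371: the sharp bound for orthonormal families in `H¹`.
-/

namespace Vale.Agent.P371.Weak

open MeasureTheory Set Filter Matrix
open scoped ComplexConjugate Topology ComplexOrder

variable {N m : ℕ}

/-- `t ^ (-1/2)` for `t ≥ 1/2`, extended. -/
noncomputable def invSqrt (t : ℝ) : ℝ := All.regInv (1 / 2) (t - 1 / 2)

lemma invSqrt_one {A : Matrix (Fin N) (Fin N) ℂ} (hA : A = 1) :
    All.mfun invSqrt A = 1 := by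
  subst hA
  have hf : invSqrt 1 = 1 := by
    rw [invSqrt, All.regInv]
    norm_num
  refine All.mfun_ext isHermitian_one fun i => ?_
  rw [All.mfun_eigvec invSqrt isHermitian_one (c := 1) (by simp), hf]
  simp

lemma invSqrt_sandwich {G : Matrix (Fin N) (Fin N) ℂ} (hG : G.IsHermitian)
    (hclose : All.Approx.ent (G - 1) ≤ 1 / 2) :
    All.mfun invSqrt G * G * All.mfun invSqrt G = 1 := by
  have hlow : ∀ v, 1 / 2 * General.nsq v ≤ General.qf G v := fun v => by
    have h := (abs_le.1 (All.Approx.abs_qf_le_ent (G - 1) v)).1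
    rw [General.qf_sub, General.qf_one] at h
    nlinarith [mul_le_mul_of_nonneg_right hclose (General.nsq_nonneg v)]
  obtain ⟨-, heig⟩ := All.Approx.posDef_of_qf hG (by norm_num : (0 : ℝ) < 1 / 2) hlow
  calc All.mfun invSqrt G * G * All.mfun invSqrt G
      = All.mfun invSqrt G * All.mfun (fun t => t) G * All.mfun invSqrt G := by
        rw [All.TT.mfun_id hG]
    _ = All.mfun (fun t => invSqrt t * t * invSqrt t) G := by
        rw [All.mfun_mul' _ _ hG, All.mfun_mul' _ _ hG]
    _ = All.mfun (fun _ => 1) G := All.mfun_congr_eig hG fun i => by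
        set t := hG.eigenvalues i
        have h := All.regInv_sq (η := 1 / 2) (by norm_num) (show 0 ≤ t - 1 / 2 by linarith [heig i])
        rw [sub_add_cancel] at h
        rw [mul_right_comm, ← sq, invSqrt, h, one_div_mul_cancel (by linarith [heig i])]
    _ = 1 := All.TT.mfun_one hG

lemma invSqrt_tendsto {G : ℕ → Matrix (Fin N) (Fin N) ℂ} (hG : ∀ n, (G n).IsHermitian)
    (h : Tendsto G atTop (𝓝 1)) :
    Tendsto (fun n => All.mfun invSqrt (G n)) atTop (𝓝 1) := by
  set K := 1 / (1 / 2 * Real.sqrt (1 / 2)) with hK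
  have hle : ∀ n i j, Complex.normSq ((All.mfun invSqrt (G n) - 1) i j)
      ≤ K ^ 2 * ∑ i, ∑ j, Complex.normSq ((G n - 1) i j) := fun n i j => by
    have h1 := All.mfun_lipschitz (φ := invSqrt) (K := K) (hG n) isHermitian_one fun k l => by
      refine (All.regInv_lipschitz (by norm_num : (0 : ℝ) < 1 / 2) _ _).trans (le_of_eq ?_)
      rw [sub_sub_sub_cancel_right]
    rw [invSqrt_one rfl] at h1
    refine le_trans ?_ h1
    exact (Finset.single_le_sum (f := fun j => Complex.normSq ((All.mfun invSqrt (G n) - 1) i j))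
      (fun _ _ => Complex.normSq_nonneg _) (Finset.mem_univ j)).trans
      (Finset.single_le_sum (f := fun i => ∑ j, Complex.normSq ((All.mfun invSqrt (G n) - 1) i j))
        (fun _ _ => Finset.sum_nonneg fun _ _ => Complex.normSq_nonneg _) (Finset.mem_univ i))
  have hz : Tendsto (fun n => K ^ 2 * ∑ i, ∑ j, Complex.normSq ((G n - 1) i j)) atTop (𝓝 0) := by
    have h1 : Continuous fun X : Matrix (Fin N) (Fin N) ℂ =>
        K ^ 2 * ∑ i, ∑ j, Complex.normSq ((X - 1) i j) := by
      refine continuous_const.mul (continuous_finsetSum _ fun i _ => continuous_finsetSum _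
        fun j _ => Complex.continuous_normSq.comp ?_)
      exact (continuous_id.sub continuous_const).matrix_elem i j
    simpa [Function.comp_def] using (h1.tendsto 1).comp h
  refine tendsto_pi_nhds.2 fun i => tendsto_pi_nhds.2 fun j => ?_
  rw [← tendsto_sub_nhds_zero_iff]
  refine squeeze_zero_norm (fun n => ?_) (by simpa using hz.sqrt)
  exact Real.le_sqrt_of_sq_le (by rw [← Complex.normSq_eq_norm_sq]; exact hle n i j)

/-- A sesquilinear matrix transforms by `Tᴴ · T`. -/
lemma sesq_transform {μ : Measure ℝ} (T : Matrix (Fin N) (Fin N) ℂ)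
    (M : ℝ → Matrix (Fin m) (Fin m) ℂ) (u : Fin N → ℝ → Fin m → ℂ)
    (hi : ∀ i j, Integrable (fun x => ∑ a, conj (u i x a) * (M x *ᵥ u j x) a) μ) :
    (Matrix.of fun k l => ∫ x, ∑ a, conj (∑ i, T i k * u i x a) *
        (M x *ᵥ fun b => ∑ j, T j l * u j x b) a ∂μ)
      = Tᴴ * (Matrix.of fun i j => ∫ x, ∑ a, conj (u i x a) * (M x *ᵥ u j x) a ∂μ) * T := by
  ext k l
  simp only [Matrix.of_apply, Matrix.mul_apply, conjTranspose_apply, Finset.sum_mul]
  have e : ∀ x, ∑ a, conj (∑ i, T i k * u i x a) * (M x *ᵥ fun b => ∑ j, T j l * u j x b) a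
      = ∑ j, ∑ i, conj (T i k) * T j l * ∑ a, conj (u i x a) * (M x *ᵥ u j x) a := fun x => by
    have e2 : ∀ a, (M x *ᵥ fun b => ∑ j, T j l * u j x b) a = ∑ j, T j l * (M x *ᵥ u j x) a :=
      fun a => by
        simp only [mulVec, dotProduct, Finset.mul_sum]
        rw [Finset.sum_comm]
        exact Finset.sum_congr rfl fun j _ => Finset.sum_congr rfl fun b _ => by ring
    simp only [e2, map_sum, map_mul, Finset.sum_mul, Finset.mul_sum]
    rw [Finset.sum_comm]
    refine Finset.sum_congr rfl fun j _ => ?_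
    rw [Finset.sum_comm]
    exact Finset.sum_congr rfl fun i _ => Finset.sum_congr rfl fun a _ => by ring
  simp only [e]
  rw [integral_finsetSum _ fun j _ => integrable_finsetSum _ fun i _ => (hi i j).const_mul _]
  refine Finset.sum_congr rfl fun j _ => ?_
  rw [integral_finsetSum _ fun i _ => (hi i j).const_mul _]
  refine Finset.sum_congr rfl fun i _ => ?_
  rw [integral_const_mul, Complex.star_def]
  ring

/-- The integrands of the form matrix are integrable. -/
theorem form_integrable {γ : ℝ} (hγ : 1 / 2 < γ) {W : ℝ → Matrix (Fin m) (Fin m) ℂ}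
    (hW : IsMPotentialAt γ W) {f f' : Fin N → ℝ → Fin m → ℂ} (hf : ∀ i, IsWH1V (f i) (f' i))
    (i j : Fin N) : Integrable (fun x => ∑ a, conj (f i x a) * (W x *ᵥ f j x) a) volume :=
  (potential_tendsto hγ hW hf i j).1

/-- The variational inequality for orthonormal families in `H¹`. -/
theorem form_bound {γ : ℝ} (hγ0 : 1 / 2 < γ) (hγ1 : γ < 3 / 2)
    {W : ℝ → Matrix (Fin m) (Fin m) ℂ} (hW : IsMPotentialAt γ W)
    {f f' : Fin N → ℝ → Fin m → ℂ} (hf : ∀ i, IsWH1V (f i) (f' i))
    (horth : ∀ i j, ∫ x, ∑ a, conj (f i x a) * f j x a = if i = j then 1 else 0)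
    (hpos : (All.formMat W f f').PosDef) :
    trPowAt γ (All.formMat W f f') ≤ All.kellerConst γ * ∫ x, trPowAt (γ + 1 / 2) (W x) := by
  set g : ℕ → Fin N → ℝ → Fin m → ℂ := fun n => gfam f n with hg
  set g' : ℕ → Fin N → ℝ → Fin m → ℂ := fun n => gfam f' n with hg'
  have hgH : ∀ n i, IsH1V (g n i) (g' n i) := fun n i a => isH1_avg (hf i a) (step_pos n)
  set G : ℕ → Matrix (Fin N) (Fin N) ℂ :=
    fun n => Matrix.of fun i j => ∫ x, ∑ a, conj (g n i x a) * g n j x a with hG
  set P : ℕ → Matrix (Fin N) (Fin N) ℂ :=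
    fun n => Matrix.of fun i j => ∫ x, ∑ a, conj (g n i x a) * (W x *ᵥ g n j x) a with hP
  set Q : ℕ → Matrix (Fin N) (Fin N) ℂ :=
    fun n => Matrix.of fun i j => ∫ x, ∑ a, conj (g' n i x a) * g' n j x a with hQ
  have hpair : ∀ {u : Fin N → ℝ → Fin m → ℂ}, (∀ i a, MemLp (fun x => u i x a) 2 volume) →
      ∀ i j, Tendsto (fun n => ∫ x, ∑ a, conj (gfam u n i x a) * gfam u n j x a) atTop
        (𝓝 (∫ x, ∑ a, conj (u i x a) * u j x a)) := fun {u} hu i j => by
    simp only [gfam]
    rw [integral_finsetSum _ fun a _ => integrable_conj_mul (hu i a) (hu j a)]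
    simp only [fun n => integral_finsetSum (μ := (volume : Measure ℝ)) Finset.univ fun a _ =>
      integrable_conj_mul (memLp_avg (hu i a) (step_pos n)).1 (memLp_avg (hu j a) (step_pos n)).1]
    exact tendsto_finsetSum _ fun a _ => inner_avg_tendsto (hu i a) (hu j a)
  have hGt : Tendsto G atTop (𝓝 1) := tendsto_pi_nhds.2 fun i => tendsto_pi_nhds.2 fun j => by
    have h := hpair (fun i a => (hf i a).1) i j
    rw [horth i j] at h
    simpa [hG, hg, Matrix.one_apply] using h
  have hΛt : Tendsto (fun n => P n - Q n) atTop (𝓝 (All.formMat W f f')) :=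
    tendsto_pi_nhds.2 fun i => tendsto_pi_nhds.2 fun j => by
      simp only [hP, hQ, Matrix.sub_apply, Matrix.of_apply, All.formMat]
      exact (potential_tendsto hγ0 hW hf i j).2.sub (hpair (fun i a => (hf i a).2.1) i j)
  have hGh : ∀ n, (G n).IsHermitian := fun n => by
    ext i j
    simp only [hG, conjTranspose_apply, Matrix.of_apply, Complex.star_def, ← integral_conj,
      map_sum, map_mul, Complex.conj_conj]
    exact integral_congr_ae (Eventually.of_forall fun x =>
      Finset.sum_congr rfl fun a _ => mul_comm _ _)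
  set T : ℕ → Matrix (Fin N) (Fin N) ℂ := fun n => All.mfun invSqrt (G n) with hT
  have hTt : Tendsto T atTop (𝓝 1) := invSqrt_tendsto hGh hGt
  set Λn : ℕ → Matrix (Fin N) (Fin N) ℂ := fun n => (T n)ᴴ * (P n - Q n) * T n with hΛn
  have hΛnt : Tendsto Λn atTop (𝓝 (All.formMat W f f')) := by
    have hc : Continuous fun X : Matrix (Fin N) (Fin N) ℂ × Matrix (Fin N) (Fin N) ℂ =>
        X.1ᴴ * X.2 * X.1 :=
      (continuous_fst.matrix_conjTranspose.matrix_mul continuous_snd).matrix_mul continuous_fst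
    simpa [Function.comp_def, hΛn] using
      (hc.tendsto (1, All.formMat W f f')).comp (hTt.prodMk_nhds hΛt)
  obtain ⟨c, hc0, hlow⟩ := All.Approx.exists_qf_lower hpos
  obtain ⟨C, hC, hup⟩ := All.Approx.trPowAt_upper (γ := γ) (by linarith) hc0 hpos hlow
  have hent : Continuous fun X : Matrix (Fin N) (Fin N) ℂ => All.Approx.ent X :=
    continuous_finsetSum _ fun i _ => continuous_finsetSum _ fun j _ =>
      (continuous_id.matrix_elem i j).norm
  have he : Tendsto (fun n => All.Approx.ent (All.formMat W f f' - Λn n)) atTop (𝓝 0) := by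
    have h := (hent.tendsto _).comp ((tendsto_const_nhds (x := All.formMat W f f')).sub hΛnt)
    simpa [Function.comp_def, All.Approx.ent] using h
  have he1 : Tendsto (fun n => All.Approx.ent (G n - 1)) atTop (𝓝 0) := by
    have h := (hent.tendsto _).comp (hGt.sub (tendsto_const_nhds (x := (1 : Matrix (Fin N) (Fin N) ℂ))))
    simpa [Function.comp_def, All.Approx.ent] using h
  have hev : ∀ᶠ n in atTop, trPowAt γ (All.formMat W f f') ≤
      All.kellerConst γ * (∫ x, trPowAt (γ + 1 / 2) (W x))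
        + C * All.Approx.ent (All.formMat W f f' - Λn n) := by
    filter_upwards [he.eventually (Iic_mem_nhds (half_pos hc0)),
      he1.eventually (Iic_mem_nhds one_half_pos)] with n hn hn1
    set h : Fin N → ℝ → Fin m → ℂ := fun k x a => ∑ i, T n i k * g n i x a with hh
    set h' : Fin N → ℝ → Fin m → ℂ := fun k x a => ∑ i, T n i k * g' n i x a with hh'
    have hH : ∀ k, IsH1V (h k) (h' k) := fun k a => All.isH1_sum _ fun i => hgH n i a
    have hTh : (T n)ᴴ = T n := (All.TT.isHermitian_mfun invSqrt (hGh n)).eq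
    have hintg : ∀ {u : Fin N → ℝ → Fin m → ℂ}, (∀ i a, MemLp (fun x => u i x a) 2 volume) →
        ∀ i j, Integrable (fun x => ∑ a, conj (u i x a) *
          ((1 : Matrix (Fin m) (Fin m) ℂ) *ᵥ u j x) a) volume := fun {u} hu i j => by
      simp only [one_mulVec]
      exact integrable_finsetSum _ fun a _ => integrable_conj_mul (hu i a) (hu j a)
    have horth' : ∀ i j, ∫ x, ∑ a, conj (h i x a) * h j x a = if i = j then 1 else 0 := by
      intro i j
      have e := sesq_transform (T n) (fun _ => (1 : Matrix (Fin m) (Fin m) ℂ)) (g n)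
        (hintg fun i a => (hgH n i a).2.2.1)
      simp only [one_mulVec] at e
      change (Matrix.of fun k l => ∫ x, ∑ a, conj (h k x a) * h l x a) = (T n)ᴴ * G n * T n at e
      rw [hTh, invSqrt_sandwich (hGh n) hn1] at e
      simpa [Matrix.one_apply] using congrFun (congrFun e i) j
    have hform : All.formMat W h h' = Λn n := by
      have e1 := sesq_transform (T n) W (g n) (All.form_integrable hγ0 hW (hgH n))
      have e2 := sesq_transform (T n) (fun _ => (1 : Matrix (Fin m) (Fin m) ℂ)) (g' n)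
        (hintg fun i a => (hgH n i a).2.2.2)
      simp only [one_mulVec] at e2
      change _ = (T n)ᴴ * P n * T n at e1
      change _ = (T n)ᴴ * Q n * T n at e2
      simp only [hΛn, Matrix.mul_sub, Matrix.sub_mul, ← e1, ← e2]
      rfl
    obtain ⟨hBd, hle⟩ := hup (Λn n) (by
      rw [← hform]; exact All.Approx.formMat_isHermitian (fun x => (hW.2.1 x).isHermitian) _ _) hn
    rw [← hform] at hBd hle
    refine hle.trans (add_le_add (All.form_bound hγ0 hγ1 hW hH horth' hBd) (le_of_eq ?_))
    rw [hform]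
  refine ge_of_tendsto ?_ hev
  simpa using (he.const_mul C).const_add (All.kellerConst γ * ∫ x, trPowAt (γ + 1 / 2) (W x))

/-- The sharp constant with eigenfunctions in `H¹`. -/
theorem sharp_constant {γ : ℝ} (hγ0 : 1 / 2 < γ) (hγ1 : γ < 3 / 2) (hm : 1 ≤ m) :
    IsGreatest (wLtRatiosAt γ m) (All.kellerConst γ) := by
  obtain ⟨hmem, hub⟩ := All.sharp_constant hγ0 hγ1 hm
  refine ⟨?_, ?_⟩
  · obtain ⟨W, hW, hI, N, lam, f, hlam, ho, hr⟩ := hmem
    refine ⟨W, hW, hI, N, lam, f, fun i => ⟨(hlam i).1, ?_⟩, ho, hr⟩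
    obtain ⟨f', hf, heq⟩ := (hlam i).2
    refine ⟨f', fun a => ⟨(hf a).2.2.1, (hf a).2.2.2, fun x => ?_⟩, heq⟩
    rw [intervalIntegral.integral_eq_sub_of_hasDerivAt (fun t _ => (hf a).1 t)
      ((hf a).2.1.intervalIntegrable _ _)]
    ring
  · rintro r ⟨W, hW, hI, N, lam, f, hlam, ho, hr⟩
    exact hub ⟨W, hW, hI, N, lam, f, fun i =>
      ⟨(hlam i).1, isMEigenfunction_of_weak hγ0 hW (hlam i).2⟩, ho, hr⟩

end Vale.Agent.P371.Weak
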