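import Vale.Agent.P371.MLift

/-!
P371: the Sobolev space `H¹` (absolutely continuous representatives) and its eigenfunctions.
-/

namespace Vale.Agent.P371.Weak

open MeasureTheory Matrix
open scoped ComplexConjugate

/-- The Sobolev space `H¹(ℝ)`: `f` and `f'` are square integrable and `f` is the primitive of
`f'`. -/
def IsWH1 (f f' : ℝ → ℂ) : Prop :=
  MemLp f 2 volume ∧ MemLp f' 2 volume ∧ ∀ x, f x = f 0 + ∫ t in (0 : ℝ)..x, f' t

/-- A vector function all of whose components are in `H¹(ℝ)`. -/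
def IsWH1V {m : ℕ} (f f' : ℝ → Fin m → ℂ) : Prop :=
  ∀ a, IsWH1 (fun x => f x a) (fun x => f' x a)

/-- An `H¹` solution of `-f'' - W f = lam f` in the sense of the quadratic form, tested only on
continuously differentiable `H¹` functions. -/
def IsWEigenfunction {m : ℕ} (W : ℝ → Matrix (Fin m) (Fin m) ℂ) (lam : ℝ)
    (f : ℝ → Fin m → ℂ) : Prop :=
  ∃ f' : ℝ → Fin m → ℂ, IsWH1V f f' ∧ ∀ g g' : ℝ → Fin m → ℂ, IsH1V g g' →
    (∫ x, ∑ a, conj (g' x a) * f' x a) - (∫ x, ∑ a, conj (g x a) * (W x *ᵥ f x) a)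
      = (lam : ℂ) * ∫ x, ∑ a, conj (g x a) * f x a

/-- Lieb-Thirring ratios at the exponent `γ`, with eigenfunctions in `H¹`. -/
def wLtRatiosAt (γ : ℝ) (m : ℕ) : Set ℝ :=
  {r | ∃ W : ℝ → Matrix (Fin m) (Fin m) ℂ, IsMPotentialAt γ W ∧
    0 < (∫ x, trPowAt (γ + 1 / 2) (W x)) ∧
    ∃ (N : ℕ) (lam : Fin N → ℝ) (f : Fin N → ℝ → Fin m → ℂ),
      (∀ i, lam i < 0 ∧ IsWEigenfunction W (lam i) (f i)) ∧
      (∀ i j, ∫ x, ∑ a, conj (f i x a) * f j x a = if i = j then 1 else 0) ∧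
      r = (∑ i, |lam i| ^ γ) / ∫ x, trPowAt (γ + 1 / 2) (W x)}

end Vale.Agent.P371.Weak
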