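import Vale.Agent.P371.Weak.Approx

/-!
P371: the eigenspaces of the form of `-d²/dx² - W` on `H¹` and the trace of the negative part.
-/

namespace Vale.Agent.P371.Weak

open MeasureTheory Matrix
open scoped ComplexConjugate

variable {m : ℕ}

/-- An `H¹` solution of the eigenvalue equation of the form, tested on all of `H¹`. -/
def IsFormEigen (W : ℝ → Matrix (Fin m) (Fin m) ℂ) (lam : ℝ) (f : ℝ → Fin m → ℂ) : Prop :=
  ∃ f' : ℝ → Fin m → ℂ, IsWH1V f f' ∧ ∀ g g' : ℝ → Fin m → ℂ, IsWH1V g g' →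
    Integrable (fun x => ∑ a, conj (g x a) * (W x *ᵥ f x) a) volume ∧
    (∫ x, ∑ a, conj (g' x a) * f' x a) - (∫ x, ∑ a, conj (g x a) * (W x *ᵥ f x) a)
      = (lam : ℂ) * ∫ x, ∑ a, conj (g x a) * f x a

lemma integrable_pair {u v : ℝ → Fin m → ℂ} (hu : ∀ a, MemLp (fun x => u x a) 2 volume)
    (hv : ∀ a, MemLp (fun x => v x a) 2 volume) :
    Integrable (fun x => ∑ a, conj (u x a) * v x a) volume :=
  integrable_finsetSum _ fun a _ => integrable_conj_mul (hu a) (hv a)

lemma isFormEigen_add {W : ℝ → Matrix (Fin m) (Fin m) ℂ} {lam : ℝ} {f h : ℝ → Fin m → ℂ}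
    (hf : IsFormEigen W lam f) (hh : IsFormEigen W lam h) : IsFormEigen W lam (f + h) := by
  obtain ⟨f', hf, ef⟩ := hf
  obtain ⟨h', hh, eh⟩ := hh
  refine ⟨f' + h', fun a => ⟨(hf a).1.add (hh a).1, (hf a).2.1.add (hh a).2.1, fun x => ?_⟩,
    fun g g' hg => ?_⟩
  · simp only [Pi.add_apply]
    rw [intervalIntegral.integral_add (memLp_ii (hf a).2.1 _ _) (memLp_ii (hh a).2.1 _ _)]
    linear_combination (hf a).2.2 x + (hh a).2.2 x
  · obtain ⟨i1, e1⟩ := ef g g' hg
    obtain ⟨i2, e2⟩ := eh g g' hg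
    simp only [Pi.add_apply, mulVec_add, mul_add, Finset.sum_add_distrib]
    refine ⟨i1.add i2, ?_⟩
    rw [integral_add (integrable_pair (fun a => (hg a).2.1) fun a => (hf a).2.1)
        (integrable_pair (fun a => (hg a).2.1) fun a => (hh a).2.1), integral_add i1 i2,
      integral_add (integrable_pair (fun a => (hg a).1) fun a => (hf a).1)
        (integrable_pair (fun a => (hg a).1) fun a => (hh a).1)]
    linear_combination e1 + e2

lemma isFormEigen_smul {W : ℝ → Matrix (Fin m) (Fin m) ℂ} {lam : ℝ} (c : ℂ)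
    {f : ℝ → Fin m → ℂ} (hf : IsFormEigen W lam f) : IsFormEigen W lam (c • f) := by
  obtain ⟨f', hf, ef⟩ := hf
  refine ⟨c • f', fun a => ⟨(hf a).1.const_mul c, (hf a).2.1.const_mul c, fun x => ?_⟩,
    fun g g' hg => ?_⟩
  · simp only [Pi.smul_apply, smul_eq_mul, intervalIntegral.integral_const_mul]
    linear_combination c * (hf a).2.2 x
  · obtain ⟨i1, e1⟩ := ef g g' hg
    simp only [Pi.smul_apply, mulVec_smul, smul_eq_mul, mul_left_comm _ c, ← Finset.mul_sum]
    refine ⟨i1.const_mul c, ?_⟩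
    rw [integral_const_mul, integral_const_mul, integral_const_mul]
    linear_combination c * e1

/-- The eigenspace of `H_W` at `lam`: the `H¹` solutions of the form equation. -/
def eigSpace (W : ℝ → Matrix (Fin m) (Fin m) ℂ) (lam : ℝ) :
    Submodule ℂ (ℝ → Fin m → ℂ) where
  carrier := {f | IsFormEigen W lam f}
  zero_mem' := ⟨0, fun a => ⟨MemLp.zero, MemLp.zero, fun x => by simp⟩, fun g g' _ => by simp⟩
  add_mem' := isFormEigen_add
  smul_mem' := fun c _ hf => isFormEigen_smul c hf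

/-- `Tr (H_W)_-^γ`: the sum over `lam < 0` of the multiplicity times `|lam| ^ γ`. -/
noncomputable def negTrace (γ : ℝ) (W : ℝ → Matrix (Fin m) (Fin m) ℂ) : ℝ :=
  ∑' lam : {l : ℝ // l < 0}, (Module.finrank ℂ (eigSpace W lam) : ℝ) * |(lam : ℝ)| ^ γ

end Vale.Agent.P371.Weak
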