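import Vale.Agent.P371.Weak.Bound
import Vale.Agent.P371.Weak.TraceDefs

/-!
P371: the form is bounded relative to `∫ |f'|²` with relative bound zero, and the sharp bound for
`Tr (H_W)_-^γ`, the sum over the negative eigenvalues counted with multiplicity.
-/

namespace Vale.Agent.P371.Weak

open MeasureTheory Set Filter Matrix
open scoped ComplexConjugate Topology ComplexOrder

variable {m N : ℕ} {γ : ℝ} {W : ℝ → Matrix (Fin m) (Fin m) ℂ}

/-- The Sobolev bound on the sup norm. -/
lemma sq_norm_le_h1 {f f' : ℝ → ℂ} (hf : IsWH1 f f') (x : ℝ) :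
    ‖f x‖ ^ 2 ≤ 2 * (∫ t, ‖f t‖ ^ 2) + 2 * ∫ t, ‖f' t‖ ^ 2 := by
  set u := avg 1 f x
  have h1 : ‖u - f x‖ ^ 2 ≤ ∫ t, ‖f' t‖ ^ 2 :=
    (avg_sub_self hf one_pos le_rfl x).trans (by rw [one_mul]; exact ((win_facts hf.2.1).2 x).2)
  have h2 : ‖u‖ ^ 2 ≤ ∫ t, ‖f t‖ ^ 2 := by
    refine (sq_norm_avg_le hf.1 one_pos x).trans ?_
    rw [inv_one, one_mul]
    exact ((win_facts hf.1).2 x).2
  have h3 : ‖f x‖ ≤ ‖u‖ + ‖u - f x‖ := norm_le_norm_add_norm_sub u (f x)
  nlinarith [pow_le_pow_left₀ (norm_nonneg _) h3 2, sq_nonneg (‖u‖ - ‖u - f x‖)]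

/-- The potential is form bounded with relative bound zero. -/
theorem form_bounded (hγ : 1 / 2 < γ) (hW : IsMPotentialAt γ W) {ε : ℝ} (hε : 0 < ε) :
    ∃ C : ℝ, ∀ f f' : ℝ → Fin m → ℂ, IsWH1V f f' →
      Integrable (fun x => ∑ a, conj (f x a) * (W x *ᵥ f x) a) volume ∧
      (∫ x, ∑ a, conj (f x a) * (W x *ᵥ f x) a).re ≤
        ε * (∫ x, ∑ a, ‖f' x a‖ ^ 2) + C * ∫ x, ∑ a, ‖f x a‖ ^ 2 := by
  set p := γ + 1 / 2 with hp'
  have hp : 1 < p := by linarith
  set A := ((m : ℝ) ^ 2) ^ p * (m : ℝ) ^ (p - 1) * ∫ x, trPowAt p (W x) with hA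
  have hlim : Tendsto (fun δ : ℝ => 2 * A * δ ^ (1 - p)) atTop (𝓝 0) := by
    have h := (tendsto_rpow_neg_atTop (show 0 < p - 1 by linarith)).const_mul (2 * A)
    simpa [neg_sub] using h
  obtain ⟨δ, hδε, hδ⟩ :=
    ((hlim.eventually (Iic_mem_nhds hε)).and (eventually_gt_atTop (0 : ℝ))).exists
  refine ⟨δ + ε, fun f f' hf => ⟨form_integrable (f := fun _ : Fin 1 => f)
    (f' := fun _ => f') hγ hW (fun _ => hf) 0 0, ?_⟩⟩
  set S : ℝ → ℝ := fun x => ∑ a, ‖f x a‖ ^ 2 with hS
  have hSi : Integrable S volume := integrable_finsetSum _ fun a _ => integrable_sq (hf a).1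
  have hint : ∫ x, S x = ∑ a, ∫ x, ‖f x a‖ ^ 2 :=
    integral_finsetSum _ fun a _ => integrable_sq (hf a).1
  have hint' : ∫ x, ∑ a, ‖f' x a‖ ^ 2 = ∑ a, ∫ x, ‖f' x a‖ ^ 2 :=
    integral_finsetSum _ fun a _ => integrable_sq (hf a).2.1
  set M := 2 * (∫ x, S x) + 2 * ∫ x, ∑ a, ‖f' x a‖ ^ 2 with hM
  have hSM : ∀ x, S x ≤ M := fun x => by
    rw [hM, hint, hint', Finset.mul_sum, Finset.mul_sum, ← Finset.sum_add_distrib]
    exact Finset.sum_le_sum fun a _ => sq_norm_le_h1 (hf a) x
  set c := δ ^ (1 - p) * (((m : ℝ) ^ 2) ^ p * (m : ℝ) ^ (p - 1)) with hc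
  have hc0 : 0 ≤ c := by positivity
  have hS0 : ∀ x, 0 ≤ S x := fun x => Finset.sum_nonneg fun a _ => sq_nonneg _
  have hpt : ∀ x, ‖∑ a, conj (f x a) * (W x *ᵥ f x) a‖
      ≤ δ * S x + M * (c * trPowAt p (W x)) := fun x => by
    have hs : ∀ a, ‖f x a‖ ^ 2 ≤ S x := fun a =>
      Finset.single_le_sum (f := fun a => ‖f x a‖ ^ 2) (fun b _ => sq_nonneg _) (Finset.mem_univ a)
    refine (norm_form_le hs hs).trans ?_
    have he := All.Approx.ent_nonneg (W x)
    have h2 := All.Approx.le_split hp.le hδ he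
    have h3 := mul_le_mul_of_nonneg_left (All.Approx.ent_rpow_le_trPow hp.le (hW.2.1 x))
      (show 0 ≤ δ ^ (1 - p) by positivity)
    rw [← mul_assoc] at h3
    have h5 : 0 ≤ c * trPowAt p (W x) := mul_nonneg hc0 (All.trPowAt_nonneg (hW.2.1 x))
    have h4 : δ ^ (1 - p) * All.Approx.ent (W x) ^ p ≤ c * trPowAt p (W x) := by
      rw [hc]; linarith
    calc All.Approx.ent (W x) * S x
        ≤ (δ + c * trPowAt p (W x)) * S x := mul_le_mul_of_nonneg_right (by linarith) (hS0 x)
      _ ≤ _ := by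
        nlinarith [mul_le_mul_of_nonneg_left (hSM x) h5]
  have hT : Integrable (fun x => δ * S x + M * (c * trPowAt p (W x))) volume :=
    (hSi.const_mul δ).add ((hW.2.2.const_mul c).const_mul M)
  refine (Complex.re_le_norm _).trans ((norm_integral_le_of_norm_le hT
    (Eventually.of_forall hpt)).trans ?_)
  rw [integral_add (hSi.const_mul δ) ((hW.2.2.const_mul c).const_mul M), integral_const_mul,
    integral_const_mul, integral_const_mul]
  have hM0 : 0 ≤ M := (hS0 0).trans (hSM 0)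
  have hk : M * (c * ∫ x, trPowAt p (W x)) ≤ M * (ε / 2) := by
    refine mul_le_mul_of_nonneg_left ?_ hM0
    rw [hc]; rw [hA] at hδε
    linarith
  rw [hM] at hk ⊢
  linarith [hk]

/-- The potential term along short means of the test function. -/
lemma potential_tendsto_left (hγ : 1 / 2 < γ) (hW : IsMPotentialAt γ W)
    {g g' f f' : ℝ → Fin m → ℂ} (hg : IsWH1V g g') (hf : IsWH1V f f') :
    Tendsto (fun n => ∫ x, ∑ a, conj (avg (step n) (fun t => g t a) x) * (W x *ᵥ f x) a) atTop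
      (𝓝 (∫ x, ∑ a, conj (g x a) * (W x *ᵥ f x) a)) := by
  have hF : ∀ i : Fin 2, IsWH1V (![g, f] i) (![g', f'] i) := fun i => by fin_cases i <;> assumption
  obtain ⟨hSi, ⟨B, hSB⟩, hS1, hS2⟩ := dom_facts hF
  set D := dom ![g, f] ![g', f'] with hD
  have hD0 : ∀ x, 0 ≤ D x := fun x => Finset.sum_nonneg fun k _ => Finset.sum_nonneg fun a _ =>
    mul_nonneg zero_le_two (add_nonneg (sq_nonneg _) ((win_facts (hF k a).2.1).2 x).1)
  set p := γ + 1 / 2 with hp'
  have hp : 1 ≤ p := by linarith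
  set C := ((m : ℝ) ^ 2) ^ p * (m : ℝ) ^ (p - 1)
  refine tendsto_integral_of_dominated_convergence (fun x => D x + |B| * (C * trPowAt p (W x)))
    (fun n => ?_) (hSi.add ((hW.2.2.const_mul C).const_mul _))
    (fun n => Eventually.of_forall fun x => ?_) (Eventually.of_forall fun x => ?_)
  · simp only [mulVec, dotProduct]
    exact (Finset.measurable_sum _ fun a _ => (Complex.continuous_conj.comp
      (continuous_avg (hg a).1 (step n))).measurable.mul (Finset.measurable_sum _ fun b _ =>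
        (hW.1 a b).mul (wh1_continuous (hf b)).measurable)).aestronglyMeasurable
  · refine (norm_form_le (S := D x) (fun a => ?_) fun a => ?_).trans ?_
    · simpa [hD] using hS2 n 0 a x
    · simpa [hD] using hS1 1 a x
    · have he := All.Approx.ent_nonneg (W x)
      have h2 := All.Approx.le_split hp one_pos he
      rw [Real.one_rpow, one_mul] at h2
      have h3 := mul_le_mul ((hSB x).trans (le_abs_self B))
        (All.Approx.ent_rpow_le_trPow hp (hW.2.1 x)) (Real.rpow_nonneg he p) (abs_nonneg B)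
      nlinarith [mul_le_mul_of_nonneg_right h2 (hD0 x)]
  · exact tendsto_finsetSum _ fun a _ =>
      ((Complex.continuous_conj.tendsto _).comp (avg_pointwise (hg a) x)).mul_const _

/-- Testing on `C¹` functions in `H¹` is the same as testing on all of `H¹`. -/
theorem formEigen_of_weak (hγ : 1 / 2 < γ) (hW : IsMPotentialAt γ W) {lam : ℝ}
    {f : ℝ → Fin m → ℂ} (hf : IsWEigenfunction W lam f) : IsFormEigen W lam f := by
  obtain ⟨f', hH, heq⟩ := hf
  refine ⟨f', hH, fun g g' hg => ⟨?_, ?_⟩⟩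
  · have hF : ∀ i : Fin 2, IsWH1V (![g, f] i) (![g', f'] i) := fun i => by
      fin_cases i <;> assumption
    simpa using form_integrable hγ hW hF 0 1
  · have hpair : ∀ {u v : ℝ → Fin m → ℂ}, (∀ a, MemLp (fun x => u x a) 2 volume) →
        (∀ a, MemLp (fun x => v x a) 2 volume) →
        Tendsto (fun n => ∫ x, ∑ a, conj (avg (step n) (fun t => u t a) x) * v x a) atTop
          (𝓝 (∫ x, ∑ a, conj (u x a) * v x a)) := by
      intro u v hu hv
      have hA := fun n a => (memLp_avg (hu a) (step_pos n)).1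
      simp only [integral_finsetSum _ fun a (_ : a ∈ Finset.univ) => integrable_conj_mul (hu a) (hv a),
        fun n => integral_finsetSum (μ := (volume : Measure ℝ)) Finset.univ fun a _ =>
          integrable_conj_mul (hA n a) (hv a)]
      refine tendsto_finsetSum _ fun a _ => ?_
      have t := pair_tendsto_zero (fun n => (hA n a).sub (hu a)) (fun _ => hv a)
        (integral_avg_tendsto (hu a)) (fun _ => le_rfl)
      rw [← tendsto_sub_nhds_zero_iff]
      refine t.congr fun n => ?_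
      rw [← integral_sub (integrable_conj_mul (hA n a) (hv a)) (integrable_conj_mul (hu a) (hv a))]
      simp only [Pi.sub_apply, map_sub, sub_mul]
    refine tendsto_nhds_unique ((hpair (fun a => (hg a).2.1) fun a => (hH a).2.1).sub
      (potential_tendsto_left hγ hW hg hH)) ?_
    refine ((hpair (fun a => (hg a).1) fun a => (hH a).1).const_mul (lam : ℂ)).congr fun n => ?_
    exact (heq _ _ fun a => isH1_avg (hg a) (step_pos n)).symm

/-- The sum over an orthonormal family of eigenfunctions. -/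
lemma family_bound (hγ0 : 1 / 2 < γ) (hγ1 : γ < 3 / 2) (hW : IsMPotentialAt γ W)
    {lam : Fin N → ℝ} {f : Fin N → ℝ → Fin m → ℂ} (hneg : ∀ i, lam i < 0)
    (heig : ∀ i, IsFormEigen W (lam i) (f i))
    (horth : ∀ i j, ∫ x, ∑ a, conj (f i x a) * f j x a = if i = j then 1 else 0) :
    ∑ i, |lam i| ^ γ ≤ All.kellerConst γ * ∫ x, trPowAt (γ + 1 / 2) (W x) := by
  choose f' hf heq using heig
  have hΛ : All.formMat W f f' = diagonal fun i => ((|lam i| : ℝ) : ℂ) := by
    ext i j
    have h := (heq j (f i) (f' i) (hf i)).2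
    rw [horth i j] at h
    simp only [All.formMat, Matrix.of_apply, diagonal_apply]
    rcases eq_or_ne i j with rfl | hij
    · simp only [if_true, mul_one] at h ⊢
      rw [abs_of_neg (hneg i)]
      push_cast
      linear_combination -h
    · simp only [if_neg hij, mul_zero] at h ⊢
      linear_combination -h
  have hpos : (All.formMat W f f').PosDef := by
    rw [hΛ]
    exact PosDef.diagonal fun i => Complex.zero_lt_real.2 (abs_pos.2 (hneg i).ne)
  have hb := form_bound hγ0 hγ1 hW hf horth hpos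
  rwa [hΛ, All.trPowAt_diagonal] at hb

/-- Eigenfunctions at different eigenvalues are orthogonal. -/
lemma eigen_orth (hW : ∀ x, (W x).IsHermitian) {k l : ℝ} (hkl : k ≠ l) {u v : ℝ → Fin m → ℂ}
    (hu : IsFormEigen W k u) (hv : IsFormEigen W l v) :
    ∫ x, ∑ a, conj (u x a) * v x a = 0 := by
  obtain ⟨u', hu, eu⟩ := hu
  obtain ⟨v', hv, ev⟩ := hv
  have h1 := (ev u u' hu).2
  have h2 := congrArg conj (eu v v' hv).2
  rw [map_sub, map_mul, Complex.conj_ofReal, ← integral_conj, ← integral_conj, ← integral_conj] at h2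
  have e : ∀ s t : ℝ → Fin m → ℂ, (∫ x, conj (∑ a, conj (s x a) * t x a))
      = ∫ x, ∑ a, conj (t x a) * s x a := fun s t => by
    congr 1
    funext x
    simp only [map_sum, map_mul, Complex.conj_conj, mul_comm]
  have eW : (∫ x, conj (∑ a, conj (v x a) * (W x *ᵥ u x) a))
      = ∫ x, ∑ a, conj (u x a) * (W x *ᵥ v x) a := by
    congr 1
    funext x
    simp only [map_sum, map_mul, Complex.conj_conj, mulVec, dotProduct, Finset.mul_sum]
    rw [Finset.sum_comm]
    refine Finset.sum_congr rfl fun a _ => Finset.sum_congr rfl fun b _ => ?_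
    rw [← Complex.star_def, (hW x).apply]
    ring
  rw [eW, e, e] at h2
  have h3 : ((l : ℂ) - k) * ∫ x, ∑ a, conj (u x a) * v x a = 0 := by linear_combination h2 - h1
  exact (mul_eq_zero.1 h3).resolve_left (sub_ne_zero.2 (by exact_mod_cast hkl.symm))

/-- The inner product of `L²` on an eigenspace. -/
@[instance_reducible]
noncomputable def eigCore (W : ℝ → Matrix (Fin m) (Fin m) ℂ) (l : ℝ) :
    InnerProductSpace.Core ℂ (eigSpace W l) where
  inner u v := ∫ x, ∑ a, conj ((u : ℝ → Fin m → ℂ) x a) * (v : ℝ → Fin m → ℂ) x a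
  conj_inner_symm u v := by
    rw [← integral_conj]
    congr 1
    funext x
    simp only [map_sum, map_mul, Complex.conj_conj, mul_comm]
  re_inner_nonneg u := by
    simp only [Complex.conj_mul']
    norm_cast
    rw [RCLike.re_to_complex, Complex.ofReal_re]
    exact integral_nonneg fun x => Finset.sum_nonneg fun a _ => sq_nonneg _
  add_left u v w := by
    obtain ⟨u', hu, _⟩ := u.2
    obtain ⟨v', hv, _⟩ := v.2
    obtain ⟨w', hw, _⟩ := w.2
    simp only [Submodule.coe_add, Pi.add_apply, map_add, add_mul, Finset.sum_add_distrib]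
    exact integral_add (integrable_pair (fun a => (hu a).1) fun a => (hw a).1)
      (integrable_pair (fun a => (hv a).1) fun a => (hw a).1)
  smul_left u v r := by
    simp only [Submodule.coe_smul, Pi.smul_apply, smul_eq_mul, map_mul, mul_assoc,
      ← Finset.mul_sum, integral_const_mul]
  definite u hu := by
    obtain ⟨u', hH, -⟩ := u.2
    simp only [Complex.conj_mul'] at hu
    norm_cast at hu
    rw [integral_eq_zero_iff_of_nonneg
      (fun x => Finset.sum_nonneg fun a _ => sq_nonneg _)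
      (integrable_finsetSum _ fun a _ => integrable_sq (hH a).1)] at hu
    have hz := Measure.eq_of_ae_eq hu
      (continuous_finsetSum _ fun a _ => (wh1_continuous (hH a)).norm.pow 2) continuous_const
    refine Subtype.ext (funext fun x => funext fun a => ?_)
    have := (Finset.sum_eq_zero_iff_of_nonneg fun b _ => sq_nonneg _).1 (congrFun hz x) a
      (Finset.mem_univ a)
    simpa using this

/-- Independent eigenfunctions can be orthonormalised. -/
lemma exists_orth {n : ℕ} {l : ℝ} {v : Fin n → eigSpace W l} (hv : LinearIndependent ℂ v) :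
    ∃ h : Fin n → ℝ → Fin m → ℂ, (∀ i, IsFormEigen W l (h i)) ∧
      ∀ i j, ∫ x, ∑ a, conj (h i x a) * h j x a = if i = j then 1 else 0 := by
  let _ : NormedAddCommGroup (eigSpace W l) := (eigCore W l).toNormedAddCommGroup
  let _ : InnerProductSpace ℂ (eigSpace W l) := InnerProductSpace.ofCore (eigCore W l).toCore
  refine ⟨fun i => (InnerProductSpace.gramSchmidtNormed ℂ v i : eigSpace W l),
    fun i => (InnerProductSpace.gramSchmidtNormed ℂ v i).2, fun i j => ?_⟩
  exact orthonormal_iff_ite.1 (InnerProductSpace.gramSchmidtNormed_orthonormal hv) i j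

/-- An orthonormal family at one eigenvalue is no larger than the multiplicity. -/
lemma card_le_finrank {ι : Type} [Fintype ι] [DecidableEq ι] {l : ℝ}
    [FiniteDimensional ℂ (eigSpace W l)] {f : ι → ℝ → Fin m → ℂ}
    (hf : ∀ i, IsFormEigen W l (f i))
    (ho : ∀ i j, ∫ x, ∑ a, conj (f i x a) * f j x a = if i = j then 1 else 0) :
    Fintype.card ι ≤ Module.finrank ℂ (eigSpace W l) := by
  refine LinearIndependent.fintype_card_le_finrank (R := ℂ)
    (b := fun i => (⟨f i, hf i⟩ : eigSpace W l)) ?_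
  let _ : NormedAddCommGroup (eigSpace W l) := (eigCore W l).toNormedAddCommGroup
  let _ : InnerProductSpace ℂ (eigSpace W l) := InnerProductSpace.ofCore (eigCore W l).toCore
  exact (orthonormal_iff_ite.2 ho).linearIndependent

/-- Every negative eigenvalue has finite multiplicity. -/
theorem eigSpace_finite (hγ0 : 1 / 2 < γ) (hγ1 : γ < 3 / 2) (hW : IsMPotentialAt γ W) {l : ℝ}
    (hl : l < 0) : FiniteDimensional ℂ (eigSpace W l) := by
  have hl' : 0 < |l| ^ γ := Real.rpow_pos_of_pos (abs_pos.2 hl.ne) γ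
  set n := ⌊All.kellerConst γ * (∫ x, trPowAt (γ + 1 / 2) (W x)) / |l| ^ γ⌋₊
  have hr : Module.rank ℂ (eigSpace W l) ≤ n := rank_le fun s hs => by
    obtain ⟨h, he, ho⟩ := exists_orth (hs.comp _ s.equivFin.symm.injective)
    have hb := family_bound hγ0 hγ1 hW (lam := fun _ => l) (fun _ => hl) he ho
    rw [Finset.sum_const, Finset.card_univ, Fintype.card_fin, nsmul_eq_mul] at hb
    exact Nat.le_floor ((le_div_iff₀ hl').2 hb)
  exact Module.rank_lt_aleph0_iff.1 (hr.trans_lt Cardinal.natCast_lt_aleph0)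

/-- Every partial sum of `Tr (H_W)_-^γ` obeys the bound. -/
lemma partial_bound (hγ0 : 1 / 2 < γ) (hγ1 : γ < 3 / 2) (hW : IsMPotentialAt γ W)
    (s : Finset {l : ℝ // l < 0}) :
    ∑ l ∈ s, (Module.finrank ℂ (eigSpace W l) : ℝ) * |(l : ℝ)| ^ γ
      ≤ All.kellerConst γ * ∫ x, trPowAt (γ + 1 / 2) (W x) := by
  have hb : ∀ l : s, ∃ h : Fin (Module.finrank ℂ (eigSpace W (l.1 : ℝ))) → ℝ → Fin m → ℂ,
      (∀ i, IsFormEigen W l.1 (h i)) ∧
      ∀ i j, ∫ x, ∑ a, conj (h i x a) * h j x a = if i = j then 1 else 0 := fun l => by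
    have := eigSpace_finite hγ0 hγ1 hW l.1.2
    exact exists_orth (Module.finBasis ℂ (eigSpace W (l.1 : ℝ))).linearIndependent
  choose h he ho using hb
  set ι := Σ l : s, Fin (Module.finrank ℂ (eigSpace W (l.1 : ℝ)))
  set e : Fin (Fintype.card ι) ≃ ι := (Fintype.equivFin ι).symm
  have hgo : ∀ p q : ι, ∫ x, ∑ a, conj (h p.1 p.2 x a) * h q.1 q.2 x a
      = if p = q then 1 else 0 := by
    rintro ⟨k, i⟩ ⟨l, j⟩
    rcases eq_or_ne k l with rfl | hkl
    · rw [ho k i j]
      exact if_congr ⟨fun h' => by rw [h'], fun h' => eq_of_heq (Sigma.mk.inj_iff.1 h').2⟩ rfl rfl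
    · rw [if_neg (fun h' => hkl (congrArg Sigma.fst h'))]
      exact eigen_orth (fun x => (hW.2.1 x).isHermitian)
        (fun h' => hkl (Subtype.ext (Subtype.ext h'))) (he k i) (he l j)
  have h1 := family_bound hγ0 hγ1 hW (lam := fun i => ((e i).1.1 : ℝ))
    (f := fun i => h (e i).1 (e i).2) (fun i => (e i).1.1.2) (fun i => he _ _) fun i j => by
      rw [hgo (e i) (e j)]
      simp only [EmbeddingLike.apply_eq_iff_eq]
  rw [Equiv.sum_comp e fun p : ι => |(p.1.1 : ℝ)| ^ γ, Fintype.sum_sigma] at h1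
  simp only [Finset.sum_const, Finset.card_univ, Fintype.card_fin, nsmul_eq_mul] at h1
  rwa [Finset.sum_coe_sort s fun l =>
    (Module.finrank ℂ (eigSpace W (l : ℝ)) : ℝ) * |(l : ℝ)| ^ γ] at h1

/-- The trace converges and obeys the sharp bound. -/
theorem negTrace_bound (hγ0 : 1 / 2 < γ) (hγ1 : γ < 3 / 2) (hW : IsMPotentialAt γ W) :
    Summable (fun l : {l : ℝ // l < 0} =>
      (Module.finrank ℂ (eigSpace W l) : ℝ) * |(l : ℝ)| ^ γ) ∧
    negTrace γ W ≤ All.kellerConst γ * ∫ x, trPowAt (γ + 1 / 2) (W x) :=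
  have h0 : ∀ l : {l : ℝ // l < 0},
      0 ≤ (Module.finrank ℂ (eigSpace W l) : ℝ) * |(l : ℝ)| ^ γ := fun l => by positivity
  ⟨summable_of_sum_le h0 (partial_bound hγ0 hγ1 hW),
    Real.tsum_le_of_sum_le h0 (partial_bound hγ0 hγ1 hW)⟩

/-- Any orthonormal family of eigenfunctions is counted in the trace. -/
lemma family_le_negTrace (hγ0 : 1 / 2 < γ) (hγ1 : γ < 3 / 2) (hW : IsMPotentialAt γ W)
    {lam : Fin N → ℝ} {f : Fin N → ℝ → Fin m → ℂ} (hneg : ∀ i, lam i < 0)
    (heig : ∀ i, IsFormEigen W (lam i) (f i))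
    (horth : ∀ i j, ∫ x, ∑ a, conj (f i x a) * f j x a = if i = j then 1 else 0) :
    ∑ i, |lam i| ^ γ ≤ negTrace γ W := by
  classical
  set k : Fin N → {l : ℝ // l < 0} := fun i => ⟨lam i, hneg i⟩ with hk
  rw [← Finset.sum_fiberwise_of_maps_to (s := Finset.univ) (t := Finset.univ.image k) (g := k)
    fun i hi => Finset.mem_image_of_mem k hi]
  refine le_trans (Finset.sum_le_sum fun l _ => ?_)
    ((negTrace_bound hγ0 hγ1 hW).1.sum_le_tsum _ fun l _ => by positivity)
  have hfin := eigSpace_finite hγ0 hγ1 hW l.2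
  have hc := card_le_finrank (W := W) (l := (l : ℝ))
    (f := fun i : {i // k i = l} => f i.1)
    (fun i => by have := heig i.1; rwa [show lam i.1 = (l : ℝ) from congrArg Subtype.val i.2] at this)
    (fun i j => by simp [horth i.1 j.1, Subtype.ext_iff])
  rw [Fintype.card_subtype] at hc
  rw [Finset.sum_congr rfl fun i hi => show |lam i| ^ γ = |(l : ℝ)| ^ γ by
    rw [← show (k i : ℝ) = l from congrArg Subtype.val (Finset.mem_filter.1 hi).2],
    Finset.sum_const, nsmul_eq_mul]
  exact mul_le_mul_of_nonneg_right (by exact_mod_cast hc) (by positivity)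

/-- The sharp constant as the greatest ratio `Tr (H_W)_-^γ / ∫ tr W^(γ+1/2)`. -/
theorem trace_constant (hγ0 : 1 / 2 < γ) (hγ1 : γ < 3 / 2) (hm : 1 ≤ m) :
    IsGreatest {r | ∃ W : ℝ → Matrix (Fin m) (Fin m) ℂ, IsMPotentialAt γ W ∧
        0 < (∫ x, trPowAt (γ + 1 / 2) (W x)) ∧
        r = negTrace γ W / ∫ x, trPowAt (γ + 1 / 2) (W x)} (All.kellerConst γ) := by
  refine ⟨?_, ?_⟩
  · obtain ⟨W, hW, hI, N, lam, f, hlam, ho, hr⟩ := (sharp_constant hγ0 hγ1 hm).1
    refine ⟨W, hW, hI, le_antisymm ?_ ((div_le_iff₀ hI).2 (negTrace_bound hγ0 hγ1 hW).2)⟩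
    rw [hr]
    exact div_le_div_of_nonneg_right (family_le_negTrace hγ0 hγ1 hW (fun i => (hlam i).1)
      (fun i => formEigen_of_weak hγ0 hW (hlam i).2) ho) hI.le
  · rintro r ⟨W, hW, hI, rfl⟩
    exact (div_le_iff₀ hI).2 (negTrace_bound hγ0 hγ1 hW).2

end Vale.Agent.P371.Weak
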